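import Mathlib

/-!
P217: symmetric additive cocycles of a fixed degree are determined by one coefficient.
-/

namespace Vale.Agent.P217.Action

variable {κ : Type*} [Field κ] (p : ℕ) [hp : Fact p.Prime] [CharP κ p]

/-- The exponent of `x` at which an additive cocycle of degree `D` is read off. -/
def keyQ (p : ℕ) [hp : Fact p.Prime] : ℕ → ℕ
  | D => if h : p ∣ D ∧ p < D then p * keyQ p (D / p) else 1
  decreasing_by exact Nat.div_lt_self (lt_trans hp.out.pos h.2) hp.out.one_lt

lemma keyQ_of_not {D : ℕ} (h : ¬ (p ∣ D ∧ p < D)) : keyQ p D = 1 := by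
  rw [keyQ, dif_neg h]

lemma keyQ_mul {D : ℕ} (h : 2 ≤ D) : keyQ p (p * D) = p * keyQ p D := by
  have hp0 := hp.out.pos
  rw [keyQ, dif_pos ⟨dvd_mul_right p D, by nlinarith⟩, Nat.mul_div_cancel_left _ hp0]

lemma keyQ_pow (v : ℕ) : keyQ p (p ^ (v + 1)) = p ^ v := by
  induction v with
  | zero => rw [keyQ_of_not p (by simp)]; simp
  | succ v ih =>
    have h2 : 2 ≤ p ^ (v + 1) := le_trans hp.out.two_le (Nat.le_self_pow (by omega) p)
    rw [pow_succ' p (v + 1), keyQ_mul p h2, ih, pow_succ']

lemma keyQ_pos_lt (D : ℕ) (hD : 2 ≤ D) : 1 ≤ keyQ p D ∧ keyQ p D < D := by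
  induction D using Nat.strong_induction_on with
  | _ D ih =>
    by_cases h : p ∣ D ∧ p < D
    · obtain ⟨⟨t, rfl⟩, hlt⟩ := h
      have ht : 2 ≤ t := by
        by_contra hc
        have : p * t ≤ p * 1 := Nat.mul_le_mul_left _ (by omega)
        omega
      obtain ⟨h1, h2⟩ := ih t (by nlinarith [hp.out.two_le]) ht
      rw [keyQ_mul p ht]
      exact ⟨Nat.one_le_iff_ne_zero.2 (Nat.mul_ne_zero hp.out.ne_zero (by omega)),
        Nat.mul_lt_mul_of_pos_left h2 hp.out.pos⟩
    · rw [keyQ_of_not p h]
      omega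

lemma choose_mul_cast (N t : ℕ) : ((p * N).choose (p * t) : κ) = N.choose t := by
  rw [CharP.natCast_eq_natCast κ p]
  refine (Choose.choose_modEq_choose_mod_mul_choose_div_nat (p := p)).trans ?_
  simp [Nat.mul_mod_right, Nat.mul_div_cancel_left _ hp.out.pos, Nat.ModEq.refl]

/-- Outside the powers of `p`, the binomial coefficient at the key is a unit. -/
lemma choose_keyQ_ne_zero (D : ℕ) (hD : 2 ≤ D) (hnp : ∀ j, D ≠ p ^ j) :
    (D.choose (keyQ p D) : κ) ≠ 0 := by
  induction D using Nat.strong_induction_on with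
  | _ D ih =>
    by_cases h : p ∣ D ∧ p < D
    · obtain ⟨⟨t, rfl⟩, hlt⟩ := h
      have ht : 2 ≤ t := by
        by_contra hc
        have : p * t ≤ p * 1 := Nat.mul_le_mul_left _ (by omega)
        omega
      rw [keyQ_mul p ht, choose_mul_cast p]
      exact ih t (by nlinarith [hp.out.two_le]) ht fun j hj =>
        hnp (j + 1) (by rw [hj, pow_succ'])
    · rw [keyQ_of_not p h, Nat.choose_one_right, Ne, CharP.cast_eq_zero_iff κ p]
      intro hd
      have hle := Nat.le_of_dvd (by omega) hd
      exact h ⟨hd, lt_of_le_of_ne hle fun he => hnp 1 (by rw [pow_one, he])⟩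

/-- The coefficient relations of a symmetric additive cocycle of degree `D`, with `c s` the
coefficient of `x^s y^(D-s)`. -/
structure IsAdditive (D : ℕ) (c : ℕ → κ) : Prop where
  zero : c 0 = 0
  symm : ∀ s ≤ D, c (D - s) = c s
  rel : ∀ i j, 1 ≤ i → 1 ≤ j → i + j < D →
    ((i + j).choose i : κ) * c (i + j) = ((D - i).choose j : κ) * c i

lemma IsAdditive.eq_zero_of_one {D : ℕ} {c : ℕ → κ} (h : IsAdditive D c) (h1 : c 1 = 0)
    (s : ℕ) (hs : ¬ p ∣ s) (hsD : s < D) : c s = 0 := by
  have hs0 : s ≠ 0 := fun h0 => hs (h0 ▸ dvd_zero p)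
  obtain rfl | hs1 := eq_or_ne s 1
  · exact h1
  have hr := h.rel 1 (s - 1) le_rfl (by omega) (by omega)
  rw [show 1 + (s - 1) = s by omega, h1, mul_zero, Nat.choose_one_right] at hr
  refine (mul_eq_zero.1 hr).resolve_left ?_
  rwa [CharP.cast_eq_zero_iff κ p]

/-- An additive cocycle vanishing at the key is zero. -/
theorem IsAdditive.eq_zero {D : ℕ} (hD : 2 ≤ D) {c : ℕ → κ} (h : IsAdditive D c)
    (hk : c (keyQ p D) = 0) : ∀ s ≤ D, c s = 0 := by
  induction D using Nat.strong_induction_on generalizing c with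
  | _ D ih =>
    intro s hs
    have hend : c D = 0 := by rw [← h.symm D le_rfl, Nat.sub_self]; exact h.zero
    rcases eq_or_lt_of_le hs with rfl | hlt
    · exact hend
    by_cases hd : p ∣ D ∧ p < D
    · obtain ⟨⟨t, rfl⟩, hpD⟩ := hd
      have hp0 := hp.out.pos
      have hp2 := hp.out.two_le
      have ht : 2 ≤ t := by
        by_contra hc
        have : p * t ≤ p * 1 := Nat.mul_le_mul_left _ (by omega)
        omega
      have h1 : c 1 = 0 := by
        have hr := h.rel 1 (p - 1) le_rfl (by omega) (by omega)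
        rw [show 1 + (p - 1) = p by omega, Nat.choose_one_right, CharP.cast_eq_zero, zero_mul] at hr
        refine (mul_eq_zero.1 hr.symm).resolve_left ?_
        obtain ⟨t', rfl⟩ : ∃ t', t = t' + 1 := ⟨t - 1, by omega⟩
        have he : p * (t' + 1) - 1 = p * t' + (p - 1) := by rw [Nat.mul_succ]; omega
        have hm : (p * (t' + 1) - 1).choose (p - 1) ≡ 1 [MOD p] := by
          refine (Choose.choose_modEq_choose_mod_mul_choose_div_nat (p := p)).trans ?_
          rw [he, Nat.mul_add_mod, Nat.mod_eq_of_lt (a := p - 1) (by omega),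
            Nat.div_eq_of_lt (a := p - 1) (by omega)]
          simp [Nat.ModEq.refl]
        rw [(CharP.natCast_eq_natCast κ p).2 hm, Nat.cast_one]
        exact one_ne_zero
      by_cases hps : p ∣ s
      · obtain ⟨u, rfl⟩ := hps
        have hc' : IsAdditive t fun r => c (p * r) := by
          refine ⟨by simpa using h.zero, fun r hr => ?_, fun i j hi hj hij => ?_⟩
          · rw [Nat.mul_sub]
            exact h.symm _ (Nat.mul_le_mul_left _ hr)
          · have hr := h.rel (p * i) (p * j) (Nat.mul_pos hp0 hi) (Nat.mul_pos hp0 hj)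
              (by rw [← mul_add]; exact Nat.mul_lt_mul_of_pos_left hij hp0)
            rwa [← mul_add, ← Nat.mul_sub, choose_mul_cast p, choose_mul_cast p] at hr
        rw [keyQ_mul p ht] at hk
        exact ih t (by nlinarith) ht hc' hk u (Nat.le_of_mul_le_mul_left hs hp0)
      · exact h.eq_zero_of_one p h1 s hps hlt
    · rw [keyQ_of_not p hd] at hk
      by_cases hps : p ∣ s
      · rcases Nat.eq_zero_or_pos s with rfl | hs0
        · exact h.zero
        have hsp := Nat.le_of_dvd hs0 hps
        rw [← h.symm s hs]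
        refine h.eq_zero_of_one p hk _ (fun hc => hd ⟨?_, by omega⟩) (by omega)
        have := Nat.dvd_add hc hps
        rwa [Nat.sub_add_cancel hs] at this
      · exact h.eq_zero_of_one p hk s hps hlt

end Vale.Agent.P217.Action
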