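/-
P217: the algebra endomorphisms of `W[[u_1, ..., u_m]]` for a complete local ring `W`.
-/
import Vale.Agent.P217.Defs
import Vale.Agent.P202.Mixed.Cohen.SeriesFlat

noncomputable section

namespace Vale.Agent.P217

open IsLocalRing MvPowerSeries

section Generic

variable {W σ : Type*} [CommRing W] [IsLocalRing W] [Finite σ]

omit [Finite σ] in
lemma mem_maximalIdeal_iff_constantCoeff (a : MvPowerSeries σ W) :
    a ∈ maximalIdeal (MvPowerSeries σ W) ↔ constantCoeff a ∈ maximalIdeal W := by
  simp only [mem_maximalIdeal, mem_nonunits_iff, MvPowerSeries.isUnit_iff_constantCoeff]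

omit [Finite σ] in
lemma X_mem_maximalIdeal (i : σ) :
    (X i : MvPowerSeries σ W) ∈ maximalIdeal (MvPowerSeries σ W) := by
  rw [mem_maximalIdeal_iff_constantCoeff, constantCoeff_X]
  exact zero_mem _

omit [Finite σ] in
lemma sub_C_constantCoeff_mem (a : MvPowerSeries σ W) :
    a - C (constantCoeff a) ∈ maximalIdeal (MvPowerSeries σ W) := by
  rw [mem_maximalIdeal_iff_constantCoeff, map_sub, constantCoeff_C, sub_self]
  exact zero_mem _

/-- The maximal ideal of power series is generated by that of the coefficients and the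
variables. -/
lemma maximalIdeal_eq_map_sup_span_X :
    maximalIdeal (MvPowerSeries σ W) = (maximalIdeal W).map (C : W →+* MvPowerSeries σ W) ⊔
      Ideal.span (Set.range (X : σ → MvPowerSeries σ W)) := by
  refine le_antisymm (fun a ha => ?_) (sup_le (Ideal.map_le_iff_le_comap.2 fun c hc => ?_) ?_)
  · rw [← add_sub_cancel (C (constantCoeff a)) a]
    exact add_mem (Ideal.mem_sup_left (Ideal.mem_map_of_mem _
        ((mem_maximalIdeal_iff_constantCoeff a).1 ha)))
      (Ideal.mem_sup_right (Vale.Agent.P202.sub_C_constantCoeff_mem_span_X a))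
  · rw [Ideal.mem_comap, mem_maximalIdeal_iff_constantCoeff, constantCoeff_C]
    exact hc
  · rw [Ideal.span_le]
    rintro _ ⟨i, rfl⟩
    exact X_mem_maximalIdeal i

omit [IsLocalRing W] [Finite σ] in
lemma endo_C (φ : MvPowerSeries σ W →ₐ[W] MvPowerSeries σ W) (c : W) : φ (C c) = C c := by
  have h := φ.commutes c
  rwa [MvPowerSeries.algebraMap_apply, Algebra.algebraMap_self, RingHom.id_apply] at h

/-- An algebra endomorphism sends the maximal ideal to itself. -/
lemma endo_mem_maximalIdeal (φ : MvPowerSeries σ W →ₐ[W] MvPowerSeries σ W)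
    {a : MvPowerSeries σ W} (ha : a ∈ maximalIdeal (MvPowerSeries σ W)) :
    φ a ∈ maximalIdeal (MvPowerSeries σ W) := by
  have hle : maximalIdeal (MvPowerSeries σ W) ≤
      (maximalIdeal (MvPowerSeries σ W)).comap φ.toRingHom := by
    conv_lhs => rw [maximalIdeal_eq_map_sup_span_X]
    refine sup_le (Ideal.map_le_iff_le_comap.2 fun c hc => ?_) (Ideal.span_le.2 ?_)
    · show φ (C c) ∈ maximalIdeal (MvPowerSeries σ W)
      rw [endo_C, mem_maximalIdeal_iff_constantCoeff, constantCoeff_C]
      exact hc
    · rintro _ ⟨i, rfl⟩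
      show φ (X i) ∈ maximalIdeal (MvPowerSeries σ W)
      rw [mem_maximalIdeal_iff_constantCoeff]
      by_contra hc
      have hu : IsUnit (X i - C (constantCoeff (φ (X i))) : MvPowerSeries σ W) := by
        rw [MvPowerSeries.isUnit_iff_constantCoeff, map_sub, constantCoeff_X, constantCoeff_C,
          zero_sub, IsUnit.neg_iff]
        exact IsLocalRing.notMem_maximalIdeal.1 hc
      refine (mem_maximalIdeal _).1 (sub_C_constantCoeff_mem (φ (X i))) ?_
      have := hu.map φ
      rwa [map_sub, endo_C] at this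
  exact hle ha

lemma endo_mem_maximalIdeal_pow (φ : MvPowerSeries σ W →ₐ[W] MvPowerSeries σ W) {k : ℕ}
    {a : MvPowerSeries σ W} (ha : a ∈ maximalIdeal (MvPowerSeries σ W) ^ k) :
    φ a ∈ maximalIdeal (MvPowerSeries σ W) ^ k := by
  have h1 : (maximalIdeal (MvPowerSeries σ W)).map φ.toRingHom ≤
      maximalIdeal (MvPowerSeries σ W) :=
    Ideal.map_le_iff_le_comap.2 fun a ha => endo_mem_maximalIdeal φ ha
  have h2 := Ideal.mem_map_of_mem φ.toRingHom ha
  rw [Ideal.map_pow] at h2
  exact Ideal.pow_right_mono h1 k h2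

/-- An algebra endomorphism induces the identity modulo the maximal ideal. -/
lemma endo_sub_self_mem (φ : MvPowerSeries σ W →ₐ[W] MvPowerSeries σ W) (a : MvPowerSeries σ W) :
    φ a - a ∈ maximalIdeal (MvPowerSeries σ W) := by
  have h := sub_mem (endo_mem_maximalIdeal φ (sub_C_constantCoeff_mem a))
    (sub_C_constantCoeff_mem a)
  rwa [map_sub, endo_C, sub_sub_sub_cancel_right] at h

/-- Endomorphisms congruent on the variables modulo `m^k` are congruent modulo `m^k`. -/
lemma endo_congr (φ ψ : MvPowerSeries σ W →ₐ[W] MvPowerSeries σ W) {k : ℕ}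
    (h : ∀ i, φ (X i) - ψ (X i) ∈ maximalIdeal (MvPowerSeries σ W) ^ k) (f : MvPowerSeries σ W) :
    φ f - ψ f ∈ maximalIdeal (MvPowerSeries σ W) ^ k := by
  classical
  have hq : ∀ q : MvPolynomial σ W, φ (q : MvPowerSeries σ W) - ψ (q : MvPowerSeries σ W) ∈
      maximalIdeal (MvPowerSeries σ W) ^ k := by
    intro q
    induction q using MvPolynomial.induction_on with
    | C c => simp [endo_C]
    | add q r hq hr =>
      rw [MvPolynomial.coe_add, map_add, map_add, add_sub_add_comm]
      exact add_mem hq hr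
    | mul_X q i hq =>
      rw [MvPolynomial.coe_mul, MvPolynomial.coe_X, map_mul, map_mul,
        show ∀ a b c d : MvPowerSeries σ W, a * b - c * d = (a - c) * b + c * (b - d) from
          fun a b c d => by ring]
      exact add_mem (Ideal.mul_mem_right _ _ hq) (Ideal.mul_mem_left _ _ (h i))
  have hr : f - (truncTotal k f : MvPowerSeries σ W) ∈
      maximalIdeal (MvPowerSeries σ W) ^ k := by
    refine Ideal.pow_right_mono ?_ k (Vale.Agent.P202.mem_span_X_pow fun t ht => ?_)
    · rw [Ideal.span_le]
      rintro _ ⟨i, rfl⟩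
      exact X_mem_maximalIdeal i
    · simp [coeff_truncTotal _ ht]
  have := add_mem (sub_mem (endo_mem_maximalIdeal_pow φ hr) (endo_mem_maximalIdeal_pow ψ hr))
    (hq (truncTotal k f))
  rwa [map_sub, map_sub, sub_sub_sub_comm, sub_add_cancel] at this

variable [IsAdicComplete (maximalIdeal W) W]

/-- An algebra endomorphism is determined by the images of the variables. -/
lemma endo_ext {φ ψ : MvPowerSeries σ W →ₐ[W] MvPowerSeries σ W}
    (h : ∀ i, φ (X i) = ψ (X i)) : φ = ψ := by
  have := Vale.Agent.P202.Mixed.isAdicComplete_mvPowerSeries (σ := σ) (R := W)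
  refine AlgHom.ext fun f => sub_eq_zero.1 (IsHausdorff.haus'
    (I := maximalIdeal (MvPowerSeries σ W)) _ fun k => ?_)
  rw [SModEq.zero, smul_eq_mul, Ideal.mul_top]
  exact endo_congr φ ψ (fun i => by rw [h i, sub_self]; exact zero_mem _) f

/-- Algebra endomorphisms correspond to tuples in the maximal ideal. -/
lemma existsUnique_endo (a : σ → MvPowerSeries σ W)
    (ha : ∀ i, a i ∈ maximalIdeal (MvPowerSeries σ W)) :
    ∃! φ : MvPowerSeries σ W →ₐ[W] MvPowerSeries σ W, ∀ i, φ (X i) = a i := by
  have := Vale.Agent.P202.Mixed.isAdicComplete_mvPowerSeries (σ := σ) (R := W)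
  obtain ⟨φ, hC, hX, -⟩ :=
    Vale.Agent.P202.exists_evalHom (C : W →+* MvPowerSeries σ W) a ha
  refine ⟨{ φ with commutes' := fun c => ?_ }, hX, fun ψ hψ => endo_ext fun i => ?_⟩
  · rw [MvPowerSeries.algebraMap_apply, Algebra.algebraMap_self, RingHom.id_apply]
    exact hC c
  · exact (hψ i).trans (hX i).symm

/-- An endomorphism whose images of the variables generate the maximal ideal modulo
`m_W + m^2` is bijective. -/
lemma endo_bijective [IsNoetherianRing (MvPowerSeries σ W)]
    (φ : MvPowerSeries σ W →ₐ[W] MvPowerSeries σ W)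
    (h : maximalIdeal (MvPowerSeries σ W) ≤ (maximalIdeal W).map (C : W →+* MvPowerSeries σ W) ⊔
      Ideal.span (Set.range fun i => φ (X i)) ⊔ maximalIdeal (MvPowerSeries σ W) ^ 2) :
    Function.Bijective φ := by
  have := Vale.Agent.P202.Mixed.isAdicComplete_mvPowerSeries (σ := σ) (R := W)
  have hCX := maximalIdeal_eq_map_sup_span_X (W := W) (σ := σ)
  set m := maximalIdeal (MvPowerSeries σ W)
  have hgen : m.map φ.toRingHom = m := by
    refine le_antisymm (Ideal.map_le_iff_le_comap.2 fun a ha => endo_mem_maximalIdeal φ ha) ?_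
    refine Submodule.le_of_le_smul_of_le_jacobson_bot (IsNoetherian.noetherian m)
      (IsLocalRing.maximalIdeal_le_jacobson ⊥) (h.trans (sup_le ?_ ?_))
    · refine le_trans ?_ le_sup_left
      conv_rhs => rw [hCX, Ideal.map_sup, Ideal.map_map, Ideal.map_span, ← Set.range_comp]
      refine sup_le_sup (le_of_eq (congrArg (fun f => Ideal.map f (maximalIdeal W)) ?_)) le_rfl
      exact (RingHom.ext fun c => endo_C φ c).symm
    · rw [smul_eq_mul, ← pow_two]
      exact le_sup_right
  have hsurj : Function.Surjective φ := by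
    let := φ.toRingHom.toAlgebra
    have hsmul : ∀ N, (m ^ N • ⊤ : Submodule (MvPowerSeries σ W) (MvPowerSeries σ W)) =
        m ^ N := fun N => by rw [smul_eq_mul, Ideal.mul_top]
    intro y
    have key : ∀ N, ∀ z ∈ m ^ N, ∃ x ∈ m ^ N, z - φ x ∈ m ^ (N + 1) := by
      intro N z hz
      rw [← hgen, ← Ideal.map_pow, Ideal.map] at hz
      induction hz using Submodule.span_induction with
      | mem w hw =>
        obtain ⟨x, hx, rfl⟩ := hw
        exact ⟨x, hx, by simp⟩
      | zero => exact ⟨0, zero_mem _, by simp⟩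
      | add u v _ _ hu hv =>
        obtain ⟨x, hx, hx'⟩ := hu
        obtain ⟨x', hy, hy'⟩ := hv
        refine ⟨x + x', add_mem hx hy, ?_⟩
        rw [map_add, add_sub_add_comm]
        exact add_mem hx' hy'
      | smul c u hu hu' =>
        obtain ⟨x, hx, hx'⟩ := hu'
        have hu2 : u ∈ m ^ N := by
          rw [← hgen, ← Ideal.map_pow]
          exact hu
        refine ⟨C (constantCoeff c) * x, Ideal.mul_mem_left _ _ hx, ?_⟩
        rw [map_mul, endo_C, smul_eq_mul, show c * u - C (constantCoeff c) * φ x =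
          (c - C (constantCoeff c)) * u + C (constantCoeff c) * (u - φ x) by ring, pow_succ']
        refine add_mem (Ideal.mul_mem_mul (sub_C_constantCoeff_mem c) hu2) ?_
        rw [← pow_succ']
        exact Ideal.mul_mem_left _ _ hx'
    choose! g hg hg' using key
    let rem : ℕ → MvPowerSeries σ W := fun N => Nat.rec y (fun N r => r - φ (g N r)) N
    have hrem : ∀ N, rem N ∈ m ^ N := fun N => by
      induction N with
      | zero => simp
      | succ N ih => exact hg' N _ ih
    let x : ℕ → MvPowerSeries σ W := fun N => ∑ j ∈ Finset.range N, g j (rem j)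
    have hx : ∀ N, y - φ (x N) = rem N := fun N => by
      induction N with
      | zero => simp [x, rem]
      | succ N ih =>
        simp only [x, Finset.sum_range_succ, map_add, ← sub_sub] at ih ⊢
        rw [ih]
    obtain ⟨z, hz⟩ := IsPrecomplete.prec' (I := m) x fun {i j} hij => by
      rw [SModEq.sub_mem, hsmul, show x i - x j = -∑ l ∈ Finset.Ico i j, g l (rem l) by
        rw [Finset.sum_Ico_eq_sub _ hij]; ring]
      exact neg_mem (Ideal.sum_mem _ fun l hl =>
        Ideal.pow_le_pow_right (Finset.mem_Ico.1 hl).1 (hg l _ (hrem l)))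
    refine ⟨z, sub_eq_zero.1 (IsHausdorff.haus' (I := m) _ fun N => ?_)⟩
    rw [SModEq.zero, hsmul]
    have h1 := hz N
    rw [SModEq.sub_mem, hsmul] at h1
    have h3 := sub_mem (neg_mem (endo_mem_maximalIdeal_pow φ h1)) (hrem N)
    rwa [← hx N, map_sub, neg_sub, sub_sub_sub_cancel_right] at h3
  refine ⟨?_, hsurj⟩
  rw [injective_iff_map_eq_zero]
  intro a ha
  let K : ℕ →o Ideal (MvPowerSeries σ W) :=
    ⟨fun k => RingHom.ker (φ ^ k).toRingHom, monotone_nat_of_le_succ fun k b hb => by
      rw [RingHom.mem_ker] at hb ⊢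
      show (φ ^ (k + 1)) b = 0
      rw [pow_succ', AlgHom.mul_apply]
      rw [show (φ ^ k) b = 0 from hb, map_zero]⟩
  obtain ⟨N, hN⟩ := monotone_stabilizes_iff_noetherian.2 inferInstance K
  have hpow : Function.Surjective (φ ^ N) := by
    rw [AlgHom.coe_pow]
    exact hsurj.iterate N
  obtain ⟨b, rfl⟩ := hpow a
  have hb : b ∈ K (N + 1) := by
    show (φ ^ (N + 1)) b = 0
    rw [pow_succ', AlgHom.mul_apply]
    exact ha
  rw [← hN (N + 1) (Nat.le_succ N)] at hb
  exact hb

end Generic

section LubinTate

variable (p n : ℕ) [Fact p.Prime]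

instance isAdicComplete_witt : IsAdicComplete (maximalIdeal (WittVector p (Res p n)))
    (WittVector p (Res p n)) :=
  Vale.Agent.P202.Mixed.Cohen.isAdicComplete_witt p (Res p n)

instance isAdicComplete_LT : IsAdicComplete (maximalIdeal (LT p n)) (LT p n) :=
  Vale.Agent.P202.Mixed.isAdicComplete_mvPowerSeries

/-- The maximal ideal of the Lubin-Tate ring is generated by `p` and the variables. -/
lemma maximalIdeal_LT :
    maximalIdeal (LT p n) = Ideal.span (insert (p : LT p n) (Set.range MvPowerSeries.X)) := by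
  rw [maximalIdeal_eq_map_sup_span_X, Vale.Agent.P202.Mixed.Cohen.maximalIdeal_witt,
    Ideal.map_span, Set.image_singleton, map_natCast, ← Ideal.span_insert]

/-- Reduction kills exactly the maximal ideal. -/
lemma red_eq_zero_iff (a : LT p n) : red p n a = 0 ↔ a ∈ maximalIdeal (LT p n) := by
  rw [mem_maximalIdeal_iff_constantCoeff, mem_maximalIdeal, mem_nonunits_iff]
  refine ⟨fun h hu => (hu.map WittVector.constantCoeff).ne_zero h, fun h => ?_⟩
  by_contra h0
  exact h (WittVector.isUnit_of_coeff_zero_ne_zero _ h0)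

/-- A `W`-algebra endomorphism commutes with reduction. -/
lemma red_endo (φ : LT p n →ₐ[WittVector p (Res p n)] LT p n) (a : LT p n) :
    red p n (φ a) = red p n a := by
  rw [← sub_eq_zero, ← map_sub, red_eq_zero_iff]
  exact endo_sub_self_mem φ a

end LubinTate

end Vale.Agent.P217
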