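/-
P217, block B: limits, lifts of residues, endomorphisms from tuples and their linearisation.
-/
import Vale.Agent.P217.Action.Endo

noncomputable section

namespace Vale.Agent.P217.Action

open IsLocalRing MvPowerSeries

variable (p n : ℕ) [Fact p.Prime]

lemma mem_maximal_iff (a : LT p n) : a ∈ maximalIdeal (LT p n) ↔ red p n a = 0 :=
  (red_eq_zero_iff p n a).symm

/-- The Teichmüller lift of a residue, as a constant. -/
def lift (x : Res p n) : LT p n := MvPowerSeries.C (WittVector.teichmuller p x)

lemma red_lift (x : Res p n) : red p n (lift p n x) = x := by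
  simp only [red, lift, RingHom.comp_apply, MvPowerSeries.constantCoeff_C]
  exact WittVector.teichmuller_coeff_zero p x

lemma red_surjective : Function.Surjective (red p n) := fun x => ⟨lift p n x, red_lift p n x⟩

lemma sub_lift_red_mem (a : LT p n) : a - lift p n (red p n a) ∈ maximalIdeal (LT p n) := by
  rw [mem_maximal_iff, map_sub, red_lift, sub_self]

/-- Compatible sequences have limits. -/
lemma exists_limit (a : ℕ → LT p n)
    (h : ∀ {k l : ℕ}, k ≤ l → a l - a k ∈ maximalIdeal (LT p n) ^ k) :
    ∃ L, ∀ k, L - a k ∈ maximalIdeal (LT p n) ^ k := by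
  obtain ⟨L, hL⟩ := IsPrecomplete.prec' (I := maximalIdeal (LT p n)) a fun {i j} hij => by
    rw [SModEq.sub_mem, smul_eq_mul, Ideal.mul_top, ← neg_mem_iff, neg_sub]
    exact h hij
  refine ⟨L, fun k => ?_⟩
  have h1 := hL k
  rw [SModEq.sub_mem, smul_eq_mul, Ideal.mul_top, ← neg_mem_iff, neg_sub] at h1
  exact h1

/-- An element in every power of the maximal ideal is zero. -/
lemma eq_of_forall_sub_mem {a b : LT p n} (h : ∀ k, a - b ∈ maximalIdeal (LT p n) ^ k) : a = b := by
  refine sub_eq_zero.1 (IsHausdorff.haus' (I := maximalIdeal (LT p n)) _ fun k => ?_)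
  rw [SModEq.zero, smul_eq_mul, Ideal.mul_top]
  exact h k

/-- The endomorphism sending the variables to a tuple in the maximal ideal. -/
def endo (a : Fin (n - 1) → LT p n) (ha : ∀ i, a i ∈ maximalIdeal (LT p n)) :
    LT p n →ₐ[WittVector p (Res p n)] LT p n :=
  (existsUnique_endo a ha).choose

@[simp] lemma endo_X (a : Fin (n - 1) → LT p n) (ha : ∀ i, a i ∈ maximalIdeal (LT p n))
    (i : Fin (n - 1)) : endo p n a ha (X i) = a i :=
  (existsUnique_endo a ha).choose_spec.1 i

lemma eq_endo (φ : LT p n →ₐ[WittVector p (Res p n)] LT p n) :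
    φ = endo p n (fun i => φ (X i))
      (fun i => endo_mem_maximalIdeal φ (X_mem_maximalIdeal i)) :=
  endo_ext fun i => (endo_X p n (fun i => φ (X i)) (fun i => endo_mem_maximalIdeal φ (X_mem_maximalIdeal i)) i).symm

/-- The residue of the coefficient of `u_i`. -/
def linCoeff (i : Fin (n - 1)) (c : LT p n) : Res p n :=
  WittVector.constantCoeff (MvPowerSeries.coeff (Finsupp.single i 1) c)

/-- Endomorphisms congruent modulo `m^k` differ modulo `m^(k+1)` by the linear parts. -/
lemma linearisation (φ ψ : LT p n →ₐ[WittVector p (Res p n)] LT p n) {k : ℕ} (hk : 1 ≤ k)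
    (h : ∀ i, φ (X i) - ψ (X i) ∈ maximalIdeal (LT p n) ^ k) (c : LT p n) :
    φ c - ψ c - ∑ i, lift p n (linCoeff p n i c) * (φ (X i) - ψ (X i)) ∈
      maximalIdeal (LT p n) ^ (k + 1) := by
  classical
  set m := maximalIdeal (LT p n)
  let R₀ : LT p n := c - MvPowerSeries.C (constantCoeff c) -
    ∑ i, MvPowerSeries.C (coeff (Finsupp.single i 1) c) * X i
  have hr : R₀ ∈ m ^ 2 := by
    refine Ideal.pow_right_mono (Ideal.span_le.2 ?_) 2
      (Vale.Agent.P202.mem_span_X_pow (n := 2) fun t ht => ?_)
    · rintro _ ⟨i, rfl⟩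
      exact X_mem_maximalIdeal i
    · simp only [R₀, map_sub, map_sum, coeff_C_mul, coeff_C, coeff_X]
      rcases Nat.eq_zero_or_pos t.degree with h0 | h0
      · rw [Finsupp.degree_eq_zero_iff] at h0
        subst h0
        rw [Finset.sum_eq_zero fun i _ => ?_]
        · simp
        · rw [if_neg fun e => by simpa using DFunLike.congr_fun e i, mul_zero]
      · obtain ⟨i, rfl⟩ : ∃ i, t = Finsupp.single i 1 := Finsupp.sum_eq_one_iff t |>.1 (by
          have : t.degree = 1 := by omega
          rwa [Finsupp.degree_apply] at this)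
        rw [if_neg (by simp), sub_zero, Finset.sum_eq_single i]
        · simp
        · intro j _ hj
          rw [if_neg (fun e => hj (Finsupp.single_left_injective one_ne_zero e).symm), mul_zero]
        · simp
  have hd : φ R₀ - ψ R₀ ∈ m ^ (k + 1) := by
    rw [pow_two] at hr
    generalize R₀ = x at hr ⊢
    induction hr using Submodule.mul_induction_on' with
    | mem_mul_mem a ha b hb =>
      rw [map_mul, map_mul, show φ a * φ b - ψ a * ψ b = (φ a - ψ a) * φ b +
        ψ a * (φ b - ψ b) by ring]
      refine add_mem ?_ ?_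
      · rw [pow_succ]
        exact Ideal.mul_mem_mul (endo_congr φ ψ h a) (endo_mem_maximalIdeal φ hb)
      · rw [pow_succ']
        exact Ideal.mul_mem_mul (endo_mem_maximalIdeal ψ ha) (endo_congr φ ψ h b)
    | add a ha b hb iha ihb =>
      rw [map_add, map_add, add_sub_add_comm]
      exact add_mem iha ihb
  have hsplit : φ c - ψ c - ∑ i, lift p n (linCoeff p n i c) * (φ (X i) - ψ (X i)) =
      (φ R₀ - ψ R₀) + ∑ i, (MvPowerSeries.C (coeff (Finsupp.single i 1) c) -
        lift p n (linCoeff p n i c)) * (φ (X i) - ψ (X i)) := by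
    simp only [R₀, map_sub, map_sum, map_mul, endo_C, sub_mul, mul_sub, Finset.sum_sub_distrib]
    ring
  rw [hsplit]
  refine add_mem hd (Ideal.sum_mem _ fun i _ => ?_)
  rw [pow_succ']
  refine Ideal.mul_mem_mul ?_ (h i)
  rw [mem_maximal_iff, map_sub, red_lift, sub_eq_zero]
  simp [red, linCoeff]

end Vale.Agent.P217.Action
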