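/-
P217, block B: the action is by automorphisms, given its existence and uniqueness.
-/
import Vale.Agent.P217.Action.Endo
import Vale.Agent.P217.Cont.Core

noncomputable section

namespace Vale.Agent.P217.Action

section Hom

variable {R : Type} [CommRing R]

lemma hasSubst_pair {σ : Type} {a b : MvPowerSeries σ R} (ha : MvPowerSeries.constantCoeff a = 0)
    (hb : MvPowerSeries.constantCoeff b = 0) : MvPowerSeries.HasSubst ![a, b] :=
  MvPowerSeries.hasSubst_of_constantCoeff_zero fun s => by fin_cases s <;> assumption

lemma constantCoeff_subst_X {f : PowerSeries R} (hf : PowerSeries.constantCoeff f = 0) (s : Fin 2) :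
    MvPowerSeries.constantCoeff
      (PowerSeries.subst (MvPowerSeries.X s : MvPowerSeries (Fin 2) R) f) = 0 :=
  PowerSeries.constantCoeff_subst_eq_zero (MvPowerSeries.constantCoeff_X (R := R) s) f hf

/-- Substituting a tuple into a one-variable substitution. -/
lemma subst_vec_subst {v : Fin 2 → MvPowerSeries (Fin 2) R} (hv : MvPowerSeries.HasSubst v)
    {a : MvPowerSeries (Fin 2) R} (ha : PowerSeries.HasSubst a) (h : PowerSeries R) :
    MvPowerSeries.subst v (PowerSeries.subst a h) =
      PowerSeries.subst (MvPowerSeries.subst v a) h :=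
  MvPowerSeries.subst_comp_subst_apply (PowerSeries.hasSubst_iff.1 ha) hv h

/-- A tuple applied to a series in one of the variables. -/
lemma subst_vec_subst_X {v : Fin 2 → MvPowerSeries (Fin 2) R} (hv : MvPowerSeries.HasSubst v)
    (s : Fin 2) (h : PowerSeries R) :
    MvPowerSeries.subst v (PowerSeries.subst (MvPowerSeries.X s : MvPowerSeries (Fin 2) R) h) =
      PowerSeries.subst (v s) h := by
  rw [subst_vec_subst hv (PowerSeries.HasSubst.X s), MvPowerSeries.subst_X hv]

/-- Composition of homomorphisms. -/
lemma isHom_comp {A B C : FormalGroup R} {f h : PowerSeries R} (hf : IsHom A B f)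
    (hh : IsHom B C h) : IsHom A C (PowerSeries.subst f h) := by
  obtain ⟨hf0, hfe⟩ := hf
  obtain ⟨hh0, hhe⟩ := hh
  have hsf : PowerSeries.HasSubst f := PowerSeries.HasSubst.of_constantCoeff_zero' hf0
  have hpair := hasSubst_pair (constantCoeff_subst_X hf0 0) (constantCoeff_subst_X hf0 1)
  refine ⟨PowerSeries.constantCoeff_subst_eq_zero hf0 h hh0, ?_⟩
  rw [PowerSeries.subst_comp_subst_apply hsf
      (PowerSeries.HasSubst.of_constantCoeff_zero A.zero_constantCoeff), hfe,
    ← subst_vec_subst hpair (PowerSeries.HasSubst.of_constantCoeff_zero B.zero_constantCoeff), hhe,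
    MvPowerSeries.subst_comp_subst_apply
      (hasSubst_pair (constantCoeff_subst_X hh0 0) (constantCoeff_subst_X hh0 1)) hpair]
  congr 1
  funext s
  revert s
  refine Fin.forall_fin_two.2 ⟨?_, ?_⟩
  all_goals
    simp only [Matrix.cons_val_zero, Matrix.cons_val_one, Matrix.cons_val_fin_one]
    rw [subst_vec_subst_X hpair, PowerSeries.subst_comp_subst_apply hsf (PowerSeries.HasSubst.X _)]
    rfl

/-- The identity series is a homomorphism. -/
lemma isHom_id (A : FormalGroup R) : IsHom A A PowerSeries.X := by
  refine ⟨PowerSeries.constantCoeff_X, ?_⟩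
  simp only [PowerSeries.subst_X (PowerSeries.HasSubst.of_constantCoeff_zero A.zero_constantCoeff),
    PowerSeries.subst_X (PowerSeries.HasSubst.X _)]
  rw [show (![MvPowerSeries.X 0, MvPowerSeries.X 1] : Fin 2 → MvPowerSeries (Fin 2) R) =
    MvPowerSeries.X from funext fun i => by fin_cases i <;> rfl, MvPowerSeries.subst_self]
  rfl

/-- The compositional inverse of an endomorphism is an endomorphism. -/
lemma isHom_inv {A : FormalGroup R} {g g' : PowerSeries R} (hg : IsHom A A g)
    (hg' : PowerSeries.constantCoeff g' = 0) (hl : PowerSeries.subst g g' = PowerSeries.X)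
    (hr : PowerSeries.subst g' g = PowerSeries.X) : IsHom A A g' := by
  obtain ⟨hg0, hge⟩ := hg
  refine ⟨hg', ?_⟩
  set P : MvPowerSeries (Fin 2) R := MvPowerSeries.subst ![PowerSeries.subst (MvPowerSeries.X (0 : Fin 2)) g',
        PowerSeries.subst (MvPowerSeries.X (1 : Fin 2)) g'] A.toPowerSeries with hP
  have hpair := hasSubst_pair (constantCoeff_subst_X hg' 0) (constantCoeff_subst_X hg' 1)
  have hsA : PowerSeries.HasSubst A.toPowerSeries :=
    PowerSeries.HasSubst.of_constantCoeff_zero A.zero_constantCoeff
  have hsP : PowerSeries.HasSubst P := PowerSeries.HasSubst.of_constantCoeff_zero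
    (MvPowerSeries.constantCoeff_subst_eq_zero (R := R) hpair (fun s => by
      fin_cases s <;> exact constantCoeff_subst_X hg' _) A.zero_constantCoeff)
  have key : PowerSeries.subst P g = A.toPowerSeries := by
    rw [hP, ← subst_vec_subst hpair hsA, hge, MvPowerSeries.subst_comp_subst_apply
      (hasSubst_pair (constantCoeff_subst_X hg0 0) (constantCoeff_subst_X hg0 1)) hpair]
    refine Eq.trans ?_ (congrFun (MvPowerSeries.subst_self (σ := Fin 2) (R := R)) A.toPowerSeries)
    congr 1
    funext s
    revert s
    refine Fin.forall_fin_two.2 ⟨?_, ?_⟩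
    all_goals
      simp only [Matrix.cons_val_zero, Matrix.cons_val_one, Matrix.cons_val_fin_one]
      rw [subst_vec_subst_X hpair]
      simp only [Matrix.cons_val_zero, Matrix.cons_val_one, Matrix.cons_val_fin_one]
      rw [← PowerSeries.subst_comp_subst_apply (PowerSeries.HasSubst.of_constantCoeff_zero' hg')
        (PowerSeries.HasSubst.X _), hr, PowerSeries.subst_X (PowerSeries.HasSubst.X _)]
  have h1 : PowerSeries.subst P (PowerSeries.subst g g') = P := by
    rw [hl, PowerSeries.subst_X hsP]
  rw [PowerSeries.subst_comp_subst_apply (PowerSeries.HasSubst.of_constantCoeff_zero' hg0) hsP,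
    key] at h1
  exact h1

end Hom

variable {p n : ℕ} [Fact p.Prime] {F : FormalGroup (LT p n)}

/-- The identity series acts by the identity. -/
lemma isAction_id : IsAction p n F PowerSeries.X (AlgHom.id _ (LT p n)) :=
  ⟨PowerSeries.X, PowerSeries.map_X _, by
    have : F.map (AlgHom.id (WittVector p (Res p n)) (LT p n)).toRingHom = F := by
      refine FormalGroup.ext ?_
      simp
    rw [this]
    exact isHom_id F⟩

/-- The identity series is in the stabilizer. -/
lemma isStabilizer_X : IsStabilizer p n F PowerSeries.X :=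
  ⟨isHom_id _, by rw [PowerSeries.coeff_one_X]; exact isUnit_one⟩

/-- Actions compose. -/
lemma isAction_comp {g g' : PowerSeries (Res p n)}
    {φ φ' : LT p n →ₐ[WittVector p (Res p n)] LT p n} (h : IsAction p n F g φ)
    (h' : IsAction p n F g' φ') : IsAction p n F (PowerSeries.subst g' g) (φ'.comp φ) := by
  obtain ⟨f, hf, hom⟩ := h
  obtain ⟨f', hf', hom'⟩ := h'
  have hm : IsHom (F.map φ'.toRingHom) (F.map (φ'.comp φ).toRingHom)
      (f.map φ'.toRingHom) := by
    have := Cont.isHom_map φ'.toRingHom hom
    rwa [show (F.map φ.toRingHom).map φ'.toRingHom = F.map (φ'.comp φ).toRingHom from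
      FormalGroup.ext (MvPowerSeries.ext fun d => by simp)] at this
  refine ⟨PowerSeries.subst f' (f.map φ'.toRingHom), ?_, isHom_comp hom' hm⟩
  have e : ((f.map φ'.toRingHom).map (red p n)) = g := by
    rw [← hf]
    refine PowerSeries.ext fun b => ?_
    simp [red_endo]
  refine (PowerSeries.map_subst (PowerSeries.HasSubst.of_constantCoeff_zero' hom'.1)
    (h := red p n) _).trans ?_
  change PowerSeries.subst (f'.map (red p n)) ((f.map φ'.toRingHom).map (red p n)) = _
  rw [e, hf']

/-- The action of a stabilizer element is bijective. -/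
theorem bijective_action (F : FormalGroup (LT p n)) (_hF : IsUniversalLaw p n F)
    (hex : ∀ g, IsStabilizer p n F g → ∃! φ, IsAction p n F g φ) :
    ∀ g φ, IsStabilizer p n F g → IsAction p n F g φ → Function.Bijective φ := by
  intro g φ hg hφ
  have hg0 : PowerSeries.constantCoeff g = 0 := hg.1.1
  let g' := g.substInvOfIsUnit hg.2
  have hl : PowerSeries.subst g g' = PowerSeries.X :=
    PowerSeries.subst_substInvOfIsUnit_left g hg0 hg.2
  have hr : PowerSeries.subst g' g = PowerSeries.X :=
    PowerSeries.subst_substInvOfIsUnit_right g hg0 hg.2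
  have hst : IsStabilizer p n F g' :=
    ⟨isHom_inv hg.1 (PowerSeries.constantCoeff_substInvOfIsUnit g hg.2) hl hr, by
      rw [PowerSeries.coeff_one_substInvOfIsUnit]
      exact Units.isUnit _⟩
  obtain ⟨ψ, hψ, -⟩ := hex g' hst
  have huniq : ∀ χ, IsAction p n F PowerSeries.X χ → χ = AlgHom.id _ (LT p n) :=
    fun χ hχ => (hex _ isStabilizer_X).unique hχ isAction_id
  have h1 := huniq _ (hr ▸ isAction_comp hφ hψ)
  have h2 := huniq _ (hl ▸ isAction_comp hψ hφ)
  exact ⟨fun a b hab => by
      simpa using (DFunLike.congr_fun h1 a).symm.trans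
        ((congrArg ψ hab).trans (DFunLike.congr_fun h1 b)),
    fun b => ⟨ψ b, DFunLike.congr_fun h2 b⟩⟩

end Vale.Agent.P217.Action
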