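/-
P217, block B: the low degree coefficients of the law.
-/
import Vale.Agent.P217.LawFacts
import Vale.Agent.P217.Action.Base
import Mathlib.Data.Nat.Choose.Factorization

noncomputable section

namespace Vale.Agent.P217.Action

open MvPowerSeries

/-- The exponent of `x^(p^(j-1)) y^(p^j - p^(j-1))`. -/
def key (p j : ℕ) : Fin 2 →₀ ℕ :=
  Finsupp.single 0 (p ^ (j - 1)) + Finsupp.single 1 (p ^ j - p ^ (j - 1))

lemma key_zero (p j : ℕ) : key p j 0 = p ^ (j - 1) := by simp [key]

lemma key_one (p j : ℕ) : key p j 1 = p ^ j - p ^ (j - 1) := by simp [key]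

lemma deg2_key {p : ℕ} (hp : 1 ≤ p) (j : ℕ) : deg2 (key p j) = p ^ j := by
  rw [deg2, key_zero, key_one, Nat.add_sub_cancel' (Nat.pow_le_pow_right hp (Nat.sub_le j 1))]

variable {p : ℕ} [Fact p.Prime]

/-- The key coefficient of `C_(p^j)` is prime to `p`. -/
lemma not_dvd_cpc_key {j : ℕ} (hj : 1 ≤ j) : ¬ p ∣ cpc p (p ^ j) (key p j) := by
  have hp : p.Prime := Fact.out
  obtain ⟨i, rfl⟩ : ∃ i, j = i + 1 := ⟨j - 1, by omega⟩
  have hlt : p ^ i < p ^ (i + 1) := Nat.pow_lt_pow_right hp.one_lt (Nat.lt_succ_self i)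
  have h1 : 0 < key p (i + 1) 0 ∧ 0 < key p (i + 1) 1 := by
    rw [key_zero, key_one, Nat.add_sub_cancel]
    exact ⟨pow_pos hp.pos _, Nat.sub_pos_of_lt hlt⟩
  have hC : (Nat.choose (p ^ (i + 1)) (p ^ i)).factorization p = 1 := by
    rw [Nat.factorization_choose_prime_pow hp hlt.le (pow_pos hp.pos _).ne',
      hp.factorization_pow]
    simp
  rw [cpc, if_pos h1, key_zero, Nat.add_sub_cancel]
  intro hd
  have h0 : Nat.choose (p ^ (i + 1)) (p ^ i) ≠ 0 := (Nat.choose_pos hlt.le).ne'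
  have hdvd : p ∣ Nat.choose (p ^ (i + 1)) (p ^ i) :=
    Nat.dvd_of_factorization_pos (by omega)
  obtain ⟨c, hc⟩ := hd
  have h2 : p ^ 2 ∣ Nat.choose (p ^ (i + 1)) (p ^ i) :=
    ⟨c, by rw [pow_two, mul_assoc, ← hc, Nat.mul_div_cancel' hdvd]⟩
  have := (hp.pow_dvd_iff_le_factorization h0).1 h2
  omega

variable {n : ℕ}

/-- The cast of the key coefficient to the residue field is nonzero. -/
lemma cpc_key_ne_zero {j : ℕ} (hj : 1 ≤ j) : (cpc p (p ^ j) (key p j) : Res p n) ≠ 0 := by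
  rw [Ne, CharP.cast_eq_zero_iff (Res p n) p]
  exact not_dvd_cpc_key hj

variable {F : FormalGroup (LT p n)} (hF : LawFacts p n F)

include hF

/-- The law is commutative. -/
lemma isComm : F.IsComm := by
  refine ⟨MvPowerSeries.ext fun d => ?_⟩
  have hswap : (![X 1, X 0] : Fin 2 → MvPowerSeries (Fin 2) (LT p n)) =
      X ∘ Equiv.swap (0 : Fin 2) 1 := by
    funext s
    fin_cases s <;> simp
  rw [hswap, ← rename_eq_subst, hF.comm d]
  conv_rhs => rw [show d = Finsupp.embDomain (Equiv.swap (0 : Fin 2) 1).toEmbedding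
    (d.mapDomain (Equiv.swap (0 : Fin 2) 1)) by
      rw [Finsupp.embDomain_eq_mapDomain, ← Finsupp.mapDomain_comp]
      conv_lhs => rw [← Finsupp.mapDomain_id (v := d)]
      refine congrArg (fun f => Finsupp.mapDomain f d) (funext fun s => ?_)
      fin_cases s <;> simp]
  exact (coeff_embDomain_rename (Equiv.swap (0 : Fin 2) 1).toEmbedding F.toPowerSeries _).symm

/-- Below degree `p^n` the special fibre is additive. -/
lemma special_eq_zero {d : Fin 2 →₀ ℕ} (h2 : 2 ≤ deg2 d) (hd : deg2 d < p ^ n) :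
    coeff d (special p n F).toPowerSeries = 0 := by
  rw [hF.special_low d h2 hd.le, if_neg hd.ne]

/-- The special fibre has nonzero key coefficient in degree `p^n`. -/
lemma special_key_ne_zero (hn : 1 ≤ n) : coeff (key p n) (special p n F).toPowerSeries ≠ 0 := by
  have hp : p.Prime := Fact.out
  have hdeg := deg2_key hp.one_le n
  have h2 : 2 ≤ deg2 (key p n) := by
    rw [hdeg]
    exact hp.two_le.trans (Nat.le_self_pow (by omega) p)
  rw [hF.special_low _ h2 hdeg.le, if_pos hdeg, neg_ne_zero]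
  exact cpc_key_ne_zero hn

/-- `u_i` does not occur linearly below degree `p^(i+1)`. -/
lemma linCoeff_coeff_eq_zero (i : Fin (n - 1)) {d : Fin 2 →₀ ℕ}
    (hd : deg2 d < p ^ (i.val + 1)) : linCoeff p n i (coeff d F.toPowerSeries) = 0 := by
  rw [linCoeff, hF.linear i d hd.le, if_neg hd.ne]

/-- `u_i` occurs linearly at the key exponent of degree `p^(i+1)`. -/
lemma linCoeff_key_ne_zero (i : Fin (n - 1)) :
    linCoeff p n i (coeff (key p (i.val + 1)) F.toPowerSeries) ≠ 0 := by
  have hdeg := deg2_key (Fact.out : p.Prime).one_le (i.val + 1)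
  rw [linCoeff, hF.linear i _ hdeg.le, if_pos hdeg, neg_ne_zero]
  exact cpc_key_ne_zero (Nat.le_add_left 1 i.val)

end Vale.Agent.P217.Action
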