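import Vale.Agent.P217.Action.Coboundary

/-!
P217: symmetric cocycles of a formal group of height `n` modulo coboundaries are spanned freely by
any cocycles with lowest degrees `p, p², ..., p^(n-1)`.
-/

noncomputable section

namespace Vale.Agent.P217.Action

open MvPowerSeries

variable {κ : Type*} [Field κ] {p : ℕ} [hp : Fact p.Prime] [CharP κ p] {n : ℕ}

lemma keyE_sum {D : ℕ} (hD : 2 ≤ D) : (keyE p D).degree = D := by
  have := keyQ_pos_lt p D hD
  rw [keyE, degree_e2]
  omega

lemma pow_keyE (hn : 1 ≤ n) (j : ℕ) : keyE p (p ^ j * p ^ n) = p ^ j • keyE p (p ^ n) := by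
  obtain ⟨m, rfl⟩ : ∃ m, n = m + 1 := ⟨n - 1, by omega⟩
  rw [keyE, keyE, ← pow_add, ← add_assoc, keyQ_pow, keyQ_pow]
  ext i
  fin_cases i <;> simp [e2, Nat.mul_sub, ← pow_add, add_assoc]

/-- The degree attached to the monomial `x^m`. -/
def slot (p : ℕ) (n : ℕ) (m : ℕ) : ℕ :=
  if p ^ Nat.log p m = m then m * p ^ n else m

lemma slot_pow (j : ℕ) : slot p n (p ^ j) = p ^ j * p ^ n := by
  simp [slot, Nat.log_pow hp.out.one_lt]

lemma slot_not {m : ℕ} (h : ∀ j, m ≠ p ^ j) : slot p n m = m := by
  rw [slot, if_neg fun hc => h _ hc.symm]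

lemma le_slot (m : ℕ) : m ≤ slot p n m := by
  rw [slot]
  split
  · exact Nat.le_mul_of_pos_right _ (pow_pos hp.out.pos n)
  · exact le_rfl

lemma slot_inj {m m' : ℕ} (h : slot p n m = slot p n m') : m = m' := by
  by_cases h1 : ∃ j, m = p ^ j <;> by_cases h2 : ∃ j, m' = p ^ j
  · obtain ⟨j, rfl⟩ := h1
    obtain ⟨j', rfl⟩ := h2
    rw [slot_pow, slot_pow] at h
    exact Nat.eq_of_mul_eq_mul_right (pow_pos hp.out.pos n) h
  · obtain ⟨j, rfl⟩ := h1
    push Not at h2
    rw [slot_pow, slot_not h2, ← pow_add] at h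
    exact absurd h.symm (h2 _)
  · obtain ⟨j, rfl⟩ := h2
    push Not at h1
    rw [slot_pow, slot_not h1, ← pow_add] at h
    exact absurd h (h1 _)
  · push Not at h1 h2
    rwa [slot_not h1, slot_not h2] at h

lemma two_le_slot (hn : 1 ≤ n) {m : ℕ} (hm : 1 ≤ m) : 2 ≤ slot p n m := by
  by_cases h : ∃ j, m = p ^ j
  · obtain ⟨j, rfl⟩ := h
    rw [slot_pow]
    exact le_trans (le_trans hp.out.two_le (Nat.le_self_pow (by omega) p))
      (Nat.le_mul_of_pos_left _ (pow_pos hp.out.pos j))
  · push Not at h
    rw [slot_not h]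
    have : m ≠ 1 := fun h1 => h 0 (by simpa using h1)
    omega

lemma slot_ne_small (hn : 1 ≤ n) (i : Fin (n - 1)) (m : ℕ) : slot p n m ≠ p ^ (i.val + 1) := by
  intro h
  by_cases h1 : ∃ j, m = p ^ j
  · obtain ⟨j, rfl⟩ := h1
    rw [slot_pow, ← pow_add] at h
    have := (Nat.pow_right_injective hp.out.two_le) h
    have := i.isLt
    omega
  · push Not at h1
    rw [slot_not h1] at h
    exact h1 _ h

lemma classify (hn : 1 ≤ n) {D : ℕ} (hD : 2 ≤ D) :
    (∃ i : Fin (n - 1), D = p ^ (i.val + 1)) ∨ ∃ m, 1 ≤ m ∧ slot p n m = D := by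
  by_cases h : ∃ k, D = p ^ k
  · obtain ⟨k, rfl⟩ := h
    have hk : 1 ≤ k := by
      by_contra hc
      rw [show k = 0 by omega, pow_zero] at hD
      omega
    rcases lt_or_ge k n with hkn | hkn
    · exact Or.inl ⟨⟨k - 1, by omega⟩, by rw [Nat.sub_add_cancel hk]⟩
    · refine Or.inr ⟨p ^ (k - n), Nat.one_le_pow _ _ hp.out.pos, ?_⟩
      rw [slot_pow, ← pow_add, Nat.sub_add_cancel hkn]
  · push Not at h
    exact Or.inr ⟨D, by omega, slot_not h⟩

variable (F : FormalGroup κ) (hlow : Ord (p ^ n) (F.toPowerSeries - (X 0 + X 1)))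
  (hlead : coeff (keyE p (p ^ n)) F.toPowerSeries ≠ 0)

include hlow hlead in
/-- The coboundary of `x^m` has lowest degree `slot m`. -/
lemma cobd_lead (hn : 1 ≤ n) {m : ℕ} (hm : 1 ≤ m) :
    Ord (slot p n m) (cobd F (PowerSeries.X ^ m)) ∧
      coeff (keyE p (slot p n m)) (cobd F (PowerSeries.X ^ m)) ≠ 0 := by
  classical
  rw [cobd_X_pow]
  by_cases h : ∃ j, m = p ^ j
  · obtain ⟨j, rfl⟩ := h
    have : CharP (MvPowerSeries (Fin 2) κ) p :=
      charP_of_injective_ringHom (f := C) (fun a b hab => by
        simpa using congrArg constantCoeff hab) p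
    have he : F.toPowerSeries ^ p ^ j - X 0 ^ p ^ j - X 1 ^ p ^ j =
        (F.toPowerSeries - (X 0 + X 1)) ^ p ^ j := by
      rw [sub_pow_char_pow, add_pow_char_pow]
      ring
    rw [he, slot_pow, pow_keyE hn]
    refine ⟨hlow.pow _, ?_⟩
    have : ExpChar κ p := ExpChar.prime hp.out
    rw [← map_iterateFrobenius_expand (p := p) hp.out.ne_zero, coeff_map, coeff_expand_smul]
    have h2 : 2 ≤ p ^ n := le_trans hp.out.two_le (Nat.le_self_pow (by omega) p)
    have hk := keyQ_pos_lt p _ h2
    have hz : coeff (keyE p (p ^ n)) (X 0 + X 1 : MvPowerSeries (Fin 2) κ) = 0 := by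
      rw [map_add, coeff_X, coeff_X, if_neg, if_neg, add_zero]
      all_goals
        intro hc
        have h1 := congrArg Finsupp.degree hc
        rw [keyE_sum h2, Finsupp.degree_single] at h1
        omega
    rw [map_sub, hz, sub_zero]
    exact (map_ne_zero _).2 hlead
  · push Not at h
    rw [slot_not h]
    have hX := ord_X (κ := κ) (σ := Fin 2)
    refine ⟨((((ord_formalGroup F).pow m).mono (by simp)).sub (((hX 0).pow m).mono (by simp))).sub
      (((hX 1).pow m).mono (by simp)), ?_⟩
    have hm2 : 2 ≤ m := by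
      have : m ≠ 1 := fun h1 => h 0 (by simpa using h1)
      omega
    obtain ⟨hq1, hq2⟩ := keyQ_pos_lt p m hm2
    have hpow : coeff (keyE p m) (F.toPowerSeries ^ m) =
        coeff (keyE p m) ((X 0 + X 1 : MvPowerSeries (Fin 2) κ) ^ m) := by
      rw [← sub_eq_zero, ← map_sub]
      exact ord_pow_sub (ord_formalGroup F) ((hX 0).add (hX 1)) (formalGroup_linear F) m _
        (by rw [keyE_sum hm2]; omega)
    have h0 : ∀ k : Fin 2, coeff (keyE p m) ((X k : MvPowerSeries (Fin 2) κ) ^ m) = 0 := by
      intro k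
      rw [X_pow_eq, coeff_monomial, if_neg]
      intro hc
      have h0' := DFunLike.congr_fun hc (0 : Fin 2)
      have h1' := DFunLike.congr_fun hc (1 : Fin 2)
      fin_cases k <;> simp [keyE, e2] at h0' h1' <;> omega
    rw [map_sub, map_sub, h0, h0, sub_zero, sub_zero, hpow, add_pow, map_sum,
      Finset.sum_eq_single (keyQ p m)]
    · rw [← map_natCast (C (σ := Fin 2) (R := κ)), X_pow_eq, X_pow_eq, monomial_mul_monomial,
        mul_one, mul_comm, coeff_C_mul, keyE, e2, coeff_monomial, if_pos rfl, mul_one]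
      exact choose_keyQ_ne_zero p m hm2 h
    · intro t _ ht
      rw [← map_natCast (C (σ := Fin 2) (R := κ)), X_pow_eq, X_pow_eq, monomial_mul_monomial,
        mul_one, mul_comm, coeff_C_mul, coeff_monomial, if_neg, mul_zero]
      intro hc
      have h0' := DFunLike.congr_fun hc (0 : Fin 2)
      simp [keyE, e2] at h0'
      omega
    · intro hc
      exact absurd (Finset.mem_range.2 (by omega)) hc

omit [CharP κ p] in
lemma coeff_cobd_eq {ε : PowerSeries κ} (d : Fin 2 →₀ ℕ) :
    coeff d (cobd F ε) = ∑ m ∈ Finset.range (d.degree + 1),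
      PowerSeries.coeff m ε * coeff d (cobd F (PowerSeries.X ^ m)) := by
  simp only [cobd_X_pow]
  exact coeff_cobd F ε d

variable {C' : Fin (n - 1) → MvPowerSeries (Fin 2) κ}
  (hCo : ∀ i : Fin (n - 1), Ord (p ^ (i.val + 1)) (C' i))
  (hCk : ∀ i : Fin (n - 1), coeff (keyE p (p ^ (i.val + 1))) (C' i) ≠ 0)

include hlow hlead hCo in
lemma coeff_cobd_eq_zero (hn : 1 ≤ n) {ε : PowerSeries κ} (hε : PowerSeries.constantCoeff ε = 0)
    {v : Fin (n - 1) → κ} {d : Fin 2 →₀ ℕ}
    (hεd : ∀ m, 1 ≤ m → slot p n m ≤ d.degree → PowerSeries.coeff m ε = 0)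
    (hvd : ∀ i : Fin (n - 1), p ^ (i.val + 1) ≤ d.degree → v i = 0) :
    coeff d (cobd F ε) = 0 ∧ coeff d (∑ i, v i • C' i) = 0 := by
  constructor
  · rw [coeff_cobd_eq]
    refine Finset.sum_eq_zero fun m _ => ?_
    rcases Nat.eq_zero_or_pos m with rfl | hm
    · simp [hε]
    rcases le_or_gt (slot p n m) d.degree with h | h
    · rw [hεd m hm h, zero_mul]
    · rw [(cobd_lead F hlow hlead hn hm).1 d h, mul_zero]
  · rw [map_sum]
    refine Finset.sum_eq_zero fun i _ => ?_
    rw [coeff_smul]
    rcases le_or_gt (p ^ (i.val + 1)) d.degree with h | h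
    · rw [hvd i h, zero_mul]
    · rw [hCo i d h, mul_zero]

include hlow hlead hCo hCk in
/-- The classes are independent modulo coboundaries. -/
theorem independent (hn : 1 ≤ n) {ε : PowerSeries κ} (hε : PowerSeries.constantCoeff ε = 0)
    {v : Fin (n - 1) → κ} (h : cobd F ε = ∑ i, v i • C' i) : v = 0 ∧ ε = 0 := by
  classical
  have key : ∀ D, (∀ m, 1 ≤ m → slot p n m = D → PowerSeries.coeff m ε = 0) ∧
      ∀ i : Fin (n - 1), p ^ (i.val + 1) = D → v i = 0 := by
    intro D
    induction D using Nat.strong_induction_on with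
    | _ D ih =>
      refine ⟨fun m hm hmD => ?_, fun i hiD => ?_⟩
      · subst hmD
        have hD2 := two_le_slot (p := p) hn hm
        have hd := keyE_sum (p := p) hD2
        have h1 := congrArg (coeff (keyE p (slot p n m))) h
        rw [coeff_cobd_eq, hd, map_sum, Finset.sum_eq_single m, Finset.sum_eq_zero] at h1
        · exact (mul_eq_zero.1 h1).resolve_right (cobd_lead F hlow hlead hn hm).2
        · intro i _
          rw [coeff_smul]
          rcases lt_trichotomy (p ^ (i.val + 1)) (slot p n m) with hlt | he | hgt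
          · rw [(ih _ hlt).2 i rfl, zero_mul]
          · exact absurd he.symm (slot_ne_small hn i m)
          · rw [hCo i _ (by rw [hd]; omega), mul_zero]
        · intro m' _ hne
          rcases Nat.eq_zero_or_pos m' with rfl | hm'
          · simp [hε]
          rcases lt_trichotomy (slot p n m') (slot p n m) with hlt | he | hgt
          · rw [(ih _ hlt).1 m' hm' rfl, zero_mul]
          · exact absurd (slot_inj he) hne
          · rw [(cobd_lead F hlow hlead hn hm').1 _ (by rw [hd]; omega), mul_zero]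
        · intro hc
          exact absurd (Finset.mem_range.2 (Nat.lt_succ_of_le (le_slot m))) hc
      · subst hiD
        have hD2 : 2 ≤ p ^ (i.val + 1) := le_trans hp.out.two_le (Nat.le_self_pow (by omega) p)
        have hd := keyE_sum (p := p) hD2
        have h1 := congrArg (coeff (keyE p (p ^ (i.val + 1)))) h
        rw [coeff_cobd_eq, hd, map_sum, Finset.sum_eq_zero, Finset.sum_eq_single i, coeff_smul] at h1
        · exact (mul_eq_zero.1 h1.symm).resolve_right (hCk i)
        · intro i' _ hne
          rw [coeff_smul]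
          rcases lt_trichotomy (p ^ (i'.val + 1)) (p ^ (i.val + 1)) with hlt | he | hgt
          · rw [(ih _ hlt).2 i' rfl, zero_mul]
          · exact absurd (Fin.ext (by have := Nat.pow_right_injective hp.out.two_le he; omega)) hne
          · rw [hCo i' _ (by rw [hd]; omega), mul_zero]
        · simp
        · intro m' _
          rcases Nat.eq_zero_or_pos m' with rfl | hm'
          · simp [hε]
          rcases lt_trichotomy (slot p n m') (p ^ (i.val + 1)) with hlt | he | hgt
          · rw [(ih _ hlt).1 m' hm' rfl, zero_mul]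
          · exact absurd he (slot_ne_small hn i m')
          · rw [(cobd_lead F hlow hlead hn hm').1 _ (by rw [hd]; omega), mul_zero]
  refine ⟨funext fun i => (key _).2 i rfl, PowerSeries.ext fun m => ?_⟩
  rcases Nat.eq_zero_or_pos m with rfl | hm
  · simpa using hε
  · simpa using (key _).1 m hm rfl

variable [F.IsComm] (hC : ∀ i, IsCocycle F (C' i))

include hlow hlead hCo hCk hC in
/-- Every cocycle is a combination of the classes and a coboundary. -/
theorem solve (hn : 1 ≤ n) {Z : MvPowerSeries (Fin 2) κ} (hZ : IsCocycle F Z) :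
    ∃ (v : Fin (n - 1) → κ) (ε : PowerSeries κ), PowerSeries.constantCoeff ε = 0 ∧
      Z + cobd F ε = ∑ i, v i • C' i := by
  classical
  let B : ℕ → MvPowerSeries (Fin 2) κ := fun D =>
    if h : ∃ i : Fin (n - 1), D = p ^ (i.val + 1) then C' h.choose
    else if h : ∃ m, 1 ≤ m ∧ slot p n m = D then cobd F (PowerSeries.X ^ h.choose) else 0
  have hBC : ∀ i : Fin (n - 1), B (p ^ (i.val + 1)) = C' i := by
    intro i
    have h : ∃ i' : Fin (n - 1), p ^ (i.val + 1) = p ^ (i'.val + 1) := ⟨i, rfl⟩
    simp only [B, dif_pos h]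
    congr
    have := Nat.pow_right_injective hp.out.two_le h.choose_spec
    exact Fin.ext (by omega)
  have hBm : ∀ m, 1 ≤ m → B (slot p n m) = cobd F (PowerSeries.X ^ m) := by
    intro m hm
    have h1 : ¬ ∃ i : Fin (n - 1), slot p n m = p ^ (i.val + 1) := fun ⟨i, hi⟩ =>
      slot_ne_small hn i m hi
    have h2 : ∃ m', 1 ≤ m' ∧ slot p n m' = slot p n m := ⟨m, hm, rfl⟩
    simp only [B, dif_neg h1, dif_pos h2]
    rw [slot_inj (p := p) (n := n) h2.choose_spec.2]
  let Rs : ℕ → MvPowerSeries (Fin 2) κ := fun D => Nat.rec Z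
    (fun D R => R - (coeff (keyE p D) R / coeff (keyE p D) (B D)) • B D) D
  let c : ℕ → κ := fun D => coeff (keyE p D) (Rs D) / coeff (keyE p D) (B D)
  have hRs : ∀ D, Rs (D + 1) = Rs D - c D • B D := fun D => rfl
  have hB0 : ∀ D, D < 2 → B D = 0 := by
    intro D hD
    have h1 : ¬ ∃ i : Fin (n - 1), D = p ^ (i.val + 1) := fun ⟨i, hi⟩ => by
      have := Nat.le_self_pow (n := i.val + 1) (by omega) p
      have := hp.out.two_le
      omega
    have h2 : ¬ ∃ m, 1 ≤ m ∧ slot p n m = D := fun ⟨m, hm, he⟩ => by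
      have := two_le_slot (p := p) hn hm
      omega
    simp only [B, dif_neg h1, dif_neg h2]
  have hBfacts : ∀ D, 2 ≤ D →
      Ord D (B D) ∧ coeff (keyE p D) (B D) ≠ 0 ∧ IsCocycle F (B D) := by
    intro D hD
    rcases classify (p := p) (n := n) hn hD with ⟨i, rfl⟩ | ⟨m, hm, rfl⟩
    · rw [hBC]; exact ⟨hCo i, hCk i, hC i⟩
    · rw [hBm m hm]
      exact ⟨(cobd_lead F hlow hlead hn hm).1, (cobd_lead F hlow hlead hn hm).2,
        isCocycle_cobd F (by simp [zero_pow (by omega : m ≠ 0)])⟩
  have hR : ∀ D, IsCocycle F (Rs D) ∧ Ord D (Rs D) := by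
    intro D
    induction D with
    | zero => exact ⟨hZ, ord_zero _⟩
    | succ D ih =>
      rw [hRs]
      rcases lt_or_ge D 2 with hD | hD
      · rw [hB0 D hD, smul_zero, sub_zero]
        exact ⟨ih.1, ih.1.ord_two.mono (by omega)⟩
      · obtain ⟨hBo, hBk, hBc⟩ := hBfacts D hD
        have hcoc : IsCocycle F (Rs D - c D • B D) := by
          rw [sub_eq_add_neg, ← neg_smul]
          exact ih.1.add (hBc.smul _)
        refine ⟨hcoc, fun d hd => ?_⟩
        have hord : Ord D (Rs D - c D • B D) :=
          ih.2.sub fun d hd => by rw [coeff_smul, hBo d hd, mul_zero]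
        rcases lt_or_ge d.degree D with hlt | hge
        · exact hord d hlt
        have hkey : coeff (keyE p D) (Rs D - c D • B D) = 0 := by
          rw [map_sub, coeff_smul]
          simp only [c]
          rw [div_mul_cancel₀ _ hBk, sub_self]
        rw [← e2_eta d] at hd hge ⊢
        rw [degree_e2] at hd hge
        have := (hcoc.lowest hord).eq_zero p hD hkey (d 0) (by omega)
        rwa [show D - d 0 = d 1 by omega] at this
  let ε : PowerSeries κ := PowerSeries.mk fun m => if 1 ≤ m then -c (slot p n m) else 0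
  let v : Fin (n - 1) → κ := fun i => c (p ^ (i.val + 1))
  let εD : ℕ → PowerSeries κ := fun D =>
    PowerSeries.mk fun m => if 1 ≤ m ∧ slot p n m < D then -c (slot p n m) else 0
  let vD : ℕ → Fin (n - 1) → κ := fun D i => if p ^ (i.val + 1) < D then v i else 0
  have hQ : ∀ D, Rs D = Z + cobd F (εD D) - ∑ i, vD D i • C' i := by
    intro D
    induction D with
    | zero =>
      have h0 : εD 0 = (0 : κ) • PowerSeries.X := PowerSeries.ext fun m => by simp [εD]
      rw [h0, cobd_smul, zero_smul, add_zero,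
        Finset.sum_eq_zero fun i _ => by simp [vD], sub_zero]
      rfl
    | succ D ih =>
      rw [hRs, ih]
      rcases lt_or_ge D 2 with hD | hD
      · have he : εD (D + 1) = εD D := PowerSeries.ext fun m => by
          simp only [εD, PowerSeries.coeff_mk]
          by_cases hm : 1 ≤ m
          · have := two_le_slot (p := p) hn hm
            rw [if_neg (by omega), if_neg (by omega)]
          · rw [if_neg (by omega), if_neg (by omega)]
        have hv : vD (D + 1) = vD D := funext fun i => by
          simp only [vD]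
          have := Nat.le_self_pow (n := i.val + 1) (by omega) p
          have := hp.out.two_le
          rw [if_neg (by omega), if_neg (by omega)]
        rw [he, hv, hB0 D hD, smul_zero, sub_zero]
      rcases classify (p := p) (n := n) hn hD with ⟨j, rfl⟩ | ⟨m₀, hm₀, rfl⟩
      · have he : εD (p ^ (j.val + 1) + 1) = εD (p ^ (j.val + 1)) := PowerSeries.ext fun m => by
          simp only [εD, PowerSeries.coeff_mk]
          have := slot_ne_small (p := p) hn j m
          simp only [Nat.lt_succ_iff, le_iff_lt_or_eq, this, or_false]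
        have hv : vD (p ^ (j.val + 1) + 1) = vD (p ^ (j.val + 1)) + Pi.single j (v j) := by
          funext i
          by_cases hij : i = j
          · subst hij; simp [vD]
          · have : p ^ (i.val + 1) ≠ p ^ (j.val + 1) := fun he =>
              hij (Fin.ext (by have := Nat.pow_right_injective hp.out.two_le he; omega))
            simp [vD, Pi.single_eq_of_ne hij, Nat.lt_succ_iff, le_iff_lt_or_eq, this]
        rw [he, hv, hBC]
        simp only [Pi.add_apply, add_smul, Finset.sum_add_distrib]
        rw [Finset.sum_eq_single j (f := fun i => (Pi.single j (v j) : Fin (n - 1) → κ) i • C' i)]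
        · simp only [Pi.single_eq_same, v]
          abel
        · intro i _ hij
          simp [Pi.single_eq_of_ne hij]
        · simp
      · have hv : vD (slot p n m₀ + 1) = vD (slot p n m₀) := funext fun i => by
          have := slot_ne_small (p := p) hn i m₀
          simp [vD, Nat.lt_succ_iff, le_iff_lt_or_eq, this.symm]
        have he : εD (slot p n m₀ + 1) =
            εD (slot p n m₀) + (-c (slot p n m₀)) • PowerSeries.X ^ m₀ := PowerSeries.ext fun m => by
          simp only [εD, map_add, PowerSeries.coeff_mk, PowerSeries.coeff_smul,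
            PowerSeries.coeff_X_pow]
          by_cases hm : m = m₀
          · subst hm; simp [hm₀]
          · have : slot p n m ≠ slot p n m₀ := fun h => hm (slot_inj h)
            simp [hm, Nat.lt_succ_iff, le_iff_lt_or_eq, this]
        rw [hv, he, cobd_add, cobd_smul, hBm m₀ hm₀, neg_smul]
        abel
  refine ⟨v, ε, by simp [ε], MvPowerSeries.ext fun d => ?_⟩
  have h0 := (hR (d.degree + 1)).2 d (Nat.lt_succ_self _)
  rw [hQ (d.degree + 1)] at h0
  obtain ⟨h1, h2⟩ := coeff_cobd_eq_zero F hlow hlead hCo hn (ε := ε - εD (d.degree + 1))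
    (v := v - vD (d.degree + 1)) (d := d) (by simp [ε, εD])
    (fun m hm hle => by simp [ε, εD, hm, hle])
    (fun i hle => by simp [vD, hle])
  have hs : cobd F (ε - εD (d.degree + 1)) + cobd F (εD (d.degree + 1)) = cobd F ε := by
    rw [← cobd_add, sub_add_cancel]
  rw [← hs, map_add, map_add, h1, zero_add]
  simp only [Pi.sub_apply, sub_smul, Finset.sum_sub_distrib, map_sub, sub_eq_zero] at h2
  rw [map_sub, map_add, sub_eq_zero] at h0
  rw [h0, h2]

end Vale.Agent.P217.Action
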