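import Vale.Agent.P217.Action.Defect
import Vale.Agent.P217.Action.Solve
import Vale.Agent.P217.Action.Lead

/-!
P217: the classes of the deformation directions, and the special fibre in low degree.
-/

noncomputable section

namespace Vale.Agent.P217.Action

open MvPowerSeries

section General

variable {T U : Type*} [CommRing T] [CommRing U]

lemma omega_map (φ : T →+* U) (G : FormalGroup T) :
    PowerSeries.map φ (Small.omega G) = Small.omega (G.map φ) := PowerSeries.ext fun m => by
  simp [Small.omega]

lemma coeff_mul_lowest {σ : Type*} {D : ℕ} {f : MvPowerSeries σ T} (hf : Ord D f)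
    (h : MvPowerSeries σ T) {d : σ →₀ ℕ} (hd : d.degree = D) :
    coeff d (f * h) = coeff d f * constantCoeff h := by
  classical
  rw [coeff_mul, Finset.sum_eq_single (d, 0)]
  · rw [coeff_zero_eq_constantCoeff_apply]
  · intro x hx hne
    rw [Finset.HasAntidiagonal.mem_antidiagonal] at hx
    rw [hf x.1 ?_, zero_mul]
    have h1 := congrArg Finsupp.degree hx
    rw [map_add] at h1
    by_contra hc
    have h2 : x.2 = 0 := (Finsupp.degree_eq_zero_iff _).1 (by omega)
    rw [h2, add_zero] at hx
    exact hne (Prod.ext hx h2)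
  · intro hx
    exact absurd (Finset.HasAntidiagonal.mem_antidiagonal.2 (add_zero d)) hx

lemma ord_two_sub_linear {g : PowerSeries T} (hg : PowerSeries.constantCoeff g = 0) (j : Fin 2) :
    Ord 2 (PowerSeries.subst (X j : MvPowerSeries (Fin 2) T) g -
      PowerSeries.coeff 1 g • (X j : MvPowerSeries (Fin 2) T)) := by
  classical
  intro d hd
  rw [map_sub, coeff_subst_range (ord_X j), coeff_smul]
  rcases (show d.degree = 0 ∨ d.degree = 1 by omega) with h | h
  · obtain rfl := (Finsupp.degree_eq_zero_iff d).1 h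
    simp [hg]
  · simp [h, Finset.sum_range_succ, hg]

/-- The lowest part of a pullback is rescaled. -/
lemma coeff_pullback_lowest {g : PowerSeries T} (hg : PowerSeries.constantCoeff g = 0) {D : ℕ}
    {Z : MvPowerSeries (Fin 2) T} (hZ : Ord D Z) {d : Fin 2 →₀ ℕ} (hd : d.degree = D) :
    coeff d (pullback g Z) = PowerSeries.coeff 1 g ^ D * coeff d Z := by
  classical
  set a : Fin 2 → T := Function.const _ (PowerSeries.coeff 1 g) with ha
  have hb : ∀ j : Fin 2, Ord 1 ((a • X : Fin 2 → MvPowerSeries (Fin 2) T) j) :=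
    fun j => ord_one_iff.2 (by simp)
  have hab : ∀ j : Fin 2, Ord 2 (![PowerSeries.subst (X (0 : Fin 2) : MvPowerSeries (Fin 2) T) g,
      PowerSeries.subst (X (1 : Fin 2) : MvPowerSeries (Fin 2) T) g] j -
        (a • X : Fin 2 → MvPowerSeries (Fin 2) T) j) := fun j => by
    fin_cases j <;> exact ord_two_sub_linear hg _
  rw [pullback, coeff_subst_congr hZ (ord_pair (ord_series (ord_X 0) hg) (ord_series (ord_X 1) hg))
    hb hab hd.le, ← rescale_eq_subst, coeff_rescale, ← hd]
  simp [ha, Finsupp.prod, Finset.prod_pow_eq_pow_sum, Finsupp.degree_apply]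

lemma pullback_sum_smul {ι : Type*} [Fintype ι] {g : PowerSeries T}
    (hg : PowerSeries.constantCoeff g = 0) (v : ι → T) (C : ι → MvPowerSeries (Fin 2) T) :
    pullback g (∑ i, v i • C i) = ∑ i, v i • pullback g (C i) := by
  have hs := hasSubst_of_ord (ord_pair (ord_series (ord_X (0 : Fin 2)) hg)
    (ord_series (ord_X (1 : Fin 2)) hg))
  simp only [pullback, ← coe_substAlgHom hs, map_sum, map_smul]

end General

variable {p n : ℕ} [Fact p.Prime] (F : FormalGroup (LT p n))

/-- The linear part of the law in the direction `u_i`. -/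
def Lin (i : Fin (n - 1)) : MvPowerSeries (Fin 2) (Res p n) :=
  fun d => linCoeff p n i (coeff d F.toPowerSeries)

lemma coeff_Lin (i : Fin (n - 1)) (d : Fin 2 →₀ ℕ) :
    coeff d (Lin F i) = linCoeff p n i (coeff d F.toPowerSeries) := rfl

/-- The partial derivative of the special fibre at a point of the graph. -/
def wFib : MvPowerSeries (Fin 2) (Res p n) :=
  PowerSeries.subst (special p n F).toPowerSeries (Small.omega (special p n F))

lemma constantCoeff_wFib : constantCoeff (wFib F) = 1 :=
  Small.constantCoeff_omega_subst _ (ord_formalGroup _)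

lemma isUnit_wFib : IsUnit (wFib F) := by
  rw [MvPowerSeries.isUnit_iff_constantCoeff, constantCoeff_wFib]
  exact isUnit_one

/-- The class of the direction `u_i`. -/
def cls (i : Fin (n - 1)) : MvPowerSeries (Fin 2) (Res p n) :=
  Lin F i * Ring.inverse (wFib F)

lemma cls_mul (i : Fin (n - 1)) : cls F i * wFib F = Lin F i := by
  rw [cls, mul_assoc, Ring.inverse_mul_cancel _ (isUnit_wFib F), mul_one]

lemma constantCoeff_inv : constantCoeff (Ring.inverse (wFib F)) = 1 := by
  have h := congrArg constantCoeff (Ring.mul_inverse_cancel _ (isUnit_wFib F))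
  rwa [map_mul, constantCoeff_wFib, one_mul, map_one] at h

lemma degree_fin_two (d : Fin 2 →₀ ℕ) : d.degree = deg2 d := by
  rw [← e2_eta d, degree_e2, deg2, (e2_apply _ _).1, (e2_apply _ _).2]

lemma key_eq_keyE {j : ℕ} (hj : 1 ≤ j) : key p j = keyE p (p ^ j) := by
  obtain ⟨i, rfl⟩ : ∃ i, j = i + 1 := ⟨j - 1, by omega⟩
  rw [keyE, keyQ_pow, key, e2, Nat.add_sub_cancel]

variable {F} (hF : LawFacts p n F)

include hF

lemma special_low_ord : Ord (p ^ n) ((special p n F).toPowerSeries - (X 0 + X 1)) := by
  classical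
  intro d hd
  rcases lt_or_ge d.degree 2 with h | h
  · exact formalGroup_linear (special p n F) d h
  have h0 : ∀ j : Fin 2, d ≠ Finsupp.single j 1 := by
    rintro j rfl
    simp at h
  rw [degree_fin_two] at h hd
  rw [map_sub, special_eq_zero hF h hd, map_add, coeff_X, coeff_X, if_neg (h0 0), if_neg (h0 1)]
  simp

lemma special_lead (hn : 1 ≤ n) :
    coeff (keyE p (p ^ n)) (special p n F).toPowerSeries ≠ 0 := by
  rw [← key_eq_keyE hn]
  exact special_key_ne_zero hF hn

lemma ord_Lin (i : Fin (n - 1)) : Ord (p ^ (i.val + 1)) (Lin F i) := fun d hd => by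
  rw [coeff_Lin, linCoeff_coeff_eq_zero hF i (by rwa [← degree_fin_two])]

lemma ord_cls (i : Fin (n - 1)) : Ord (p ^ (i.val + 1)) (cls F i) := by
  have := (ord_Lin hF i).mul (ord_zero (Ring.inverse (wFib F)))
  rwa [add_zero] at this

lemma cls_lead (i : Fin (n - 1)) : coeff (keyE p (p ^ (i.val + 1))) (cls F i) ≠ 0 := by
  have hd : (keyE p (p ^ (i.val + 1))).degree = p ^ (i.val + 1) :=
    keyE_sum ((Fact.out : p.Prime).two_le.trans (Nat.le_self_pow (by omega) p))
  rw [cls, coeff_mul_lowest (ord_Lin hF i) _ hd, constantCoeff_inv, mul_one, coeff_Lin,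
    ← key_eq_keyE (Nat.le_add_left 1 i.val)]
  exact linCoeff_key_ne_zero hF i

lemma pullback_cls_lead {g : PowerSeries (Res p n)} (hg : PowerSeries.constantCoeff g = 0)
    (hu : IsUnit (PowerSeries.coeff 1 g)) (i : Fin (n - 1)) :
    coeff (keyE p (p ^ (i.val + 1))) (pullback g (cls F i)) ≠ 0 := by
  rw [coeff_pullback_lowest hg (ord_cls hF i)
    (keyE_sum ((Fact.out : p.Prime).two_le.trans (Nat.le_self_pow (by omega) p)))]
  exact mul_ne_zero (pow_ne_zero _ hu.ne_zero) (cls_lead hF i)

end Vale.Agent.P217.Action
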