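import Vale.Agent.P217.Action.Cocycle

/-!
P217: coboundaries of a commutative formal group, and cocycles pulled back along endomorphisms.
-/

noncomputable section

namespace Vale.Agent.P217.Action

open MvPowerSeries

variable {κ : Type*} [CommRing κ] (F : FormalGroup κ)

/-- The exponent at which a cocycle of lowest degree `D` is read off. -/
def keyE (p : ℕ) [Fact p.Prime] (D : ℕ) : Fin 2 →₀ ℕ := e2 (keyQ p D) (D - keyQ p D)

/-- The coboundary `ε(F(x,y)) - ε(x) - ε(y)`. -/
def cobd (ε : PowerSeries κ) : MvPowerSeries (Fin 2) κ :=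
  PowerSeries.subst F.toPowerSeries ε - PowerSeries.subst (X 0 : MvPowerSeries (Fin 2) κ) ε -
    PowerSeries.subst (X 1 : MvPowerSeries (Fin 2) κ) ε

lemma hasSubst_one {σ : Type*} {a : MvPowerSeries σ κ} (ha : Ord 1 a) : PowerSeries.HasSubst a :=
  PowerSeries.HasSubst.of_constantCoeff_zero (ord_one_iff.1 ha)

lemma coeff_subst_range {σ : Type*} {a : MvPowerSeries σ κ} (ha : Ord 1 a) (ε : PowerSeries κ)
    (d : σ →₀ ℕ) :
    coeff d (PowerSeries.subst a ε) =
      ∑ m ∈ Finset.range (d.degree + 1), PowerSeries.coeff m ε * coeff d (a ^ m) := by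
  rw [PowerSeries.coeff_subst (hasSubst_one ha),
    finsum_eq_sum_of_support_subset _ (s := Finset.range (d.degree + 1))]
  · simp
  · intro m hm
    by_contra hc
    rw [Finset.coe_range, Set.mem_Iio] at hc
    exact hm (by simp [ha.pow m d (by omega)])

lemma coeff_cobd (ε : PowerSeries κ) (d : Fin 2 →₀ ℕ) :
    coeff d (cobd F ε) = ∑ m ∈ Finset.range (d.degree + 1), PowerSeries.coeff m ε *
      coeff d (F.toPowerSeries ^ m - X 0 ^ m - X 1 ^ m) := by
  rw [cobd, map_sub, map_sub, coeff_subst_range (ord_formalGroup F),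
    coeff_subst_range (ord_X 0), coeff_subst_range (ord_X 1), ← Finset.sum_sub_distrib,
    ← Finset.sum_sub_distrib]
  refine Finset.sum_congr rfl fun m _ => ?_
  rw [map_sub, map_sub]
  ring

lemma cobd_add (ε ε' : PowerSeries κ) : cobd F (ε + ε') = cobd F ε + cobd F ε' := by
  rw [cobd, cobd, cobd, PowerSeries.subst_add (hasSubst_one (ord_formalGroup F)),
    PowerSeries.subst_add (hasSubst_one (ord_X 0)), PowerSeries.subst_add (hasSubst_one (ord_X 1))]
  ring

lemma cobd_smul (c : κ) (ε : PowerSeries κ) : cobd F (c • ε) = c • cobd F ε := by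
  rw [cobd, cobd, PowerSeries.subst_smul (hasSubst_one (ord_formalGroup F)),
    PowerSeries.subst_smul (hasSubst_one (ord_X 0)), PowerSeries.subst_smul (hasSubst_one (ord_X 1)),
    smul_sub, smul_sub]

lemma cobd_X_pow (m : ℕ) :
    cobd F (PowerSeries.X ^ m) = F.toPowerSeries ^ m - X 0 ^ m - X 1 ^ m := by
  rw [cobd, PowerSeries.subst_pow (hasSubst_one (ord_formalGroup F)),
    PowerSeries.subst_pow (hasSubst_one (ord_X 0)), PowerSeries.subst_pow (hasSubst_one (ord_X 1)),
    PowerSeries.subst_X (hasSubst_one (ord_formalGroup F)),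
    PowerSeries.subst_X (hasSubst_one (ord_X 0)), PowerSeries.subst_X (hasSubst_one (ord_X 1))]

lemma subst_series {σ τ : Type*} [Finite σ] {a : σ → MvPowerSeries τ κ} (ha : ∀ i, Ord 1 (a i))
    {b : MvPowerSeries σ κ} (hb : Ord 1 b) (ε : PowerSeries κ) :
    subst a (PowerSeries.subst b ε) = PowerSeries.subst (subst a b) ε := by
  rw [PowerSeries.subst_def, PowerSeries.subst_def,
    subst_comp_subst_apply (hasSubst_one hb).const (hasSubst_of_ord ha)]

/-- Coboundaries are cocycles. -/
lemma isCocycle_cobd [F.IsComm] {ε : PowerSeries κ} (hε : PowerSeries.constantCoeff ε = 0) :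
    IsCocycle F (cobd F ε) := by
  have key : ∀ {τ : Type} (f g : MvPowerSeries τ κ), Ord 1 f → Ord 1 g →
      subst ![f, g] (cobd F ε) = PowerSeries.subst (subst ![f, g] F.toPowerSeries) ε -
        PowerSeries.subst f ε - PowerSeries.subst g ε := by
    intro τ f g hf hg
    have hs := hasSubst_of_ord (ord_pair hf hg)
    rw [cobd, subst_sub hs, subst_sub hs, subst_series (ord_pair hf hg) (ord_formalGroup F),
      subst_series (ord_pair hf hg) (ord_X 0), subst_series (ord_pair hf hg) (ord_X 1),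
      subst_X hs, subst_X hs]
    rfl
  have hX := fun (τ : Type) (i : τ) => hasSubst_one (ord_X (κ := κ) i)
  refine ⟨?_, ?_, ?_⟩
  · rw [key _ _ (ord_X 0) (ord_one_iff.2 (by simp)), F.add_zero (hX _ 0),
      PowerSeries.subst_zero_of_constantCoeff_zero hε]
    simp
  · rw [key _ _ (ord_X 1) (ord_X 0), ← F.comm' (hX _ 0) (hX _ 1)]
    have hid : (![X 0, X 1] : Fin 2 → MvPowerSeries (Fin 2) κ) = MvPowerSeries.X := by
      funext i; fin_cases i <;> rfl
    rw [hid, subst_self, cobd, id]
    ring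
  · have hF : ∀ u v : Fin 3,
        Ord 1 (subst ![(X u : MvPowerSeries (Fin 3) κ), X v] F.toPowerSeries) :=
      fun u v => (ord_formalGroup F).subst (ord_pair (ord_X u) (ord_X v))
    rw [key _ _ (ord_X 0) (ord_X 1), key _ _ (hF 0 1) (ord_X 2), key _ _ (ord_X 1) (ord_X 2),
      key _ _ (ord_X 0) (hF 1 2), F.assoc' (hX _ 0) (hX _ 1) (hX _ 2)]
    ring

variable {F}

lemma IsCocycle.add {Z Z' : MvPowerSeries (Fin 2) κ} (h : IsCocycle F Z) (h' : IsCocycle F Z') :
    IsCocycle F (Z + Z') := by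
  have hF : ∀ u v : Fin 3,
      Ord 1 (subst ![(X u : MvPowerSeries (Fin 3) κ), X v] F.toPowerSeries) :=
    fun u v => (ord_formalGroup F).subst (ord_pair (ord_X u) (ord_X v))
  have h01 := hasSubst_of_ord (ord_pair (ord_X (κ := κ) (0 : Fin 3)) (ord_X 1))
  have h12 := hasSubst_of_ord (ord_pair (ord_X (κ := κ) (1 : Fin 3)) (ord_X 2))
  refine ⟨?_, ?_, ?_⟩
  · rw [subst_add (hasSubst_of_ord (ord_pair (ord_X 0) (ord_one_iff.2 (by simp)))), h.zero_right,
      h'.zero_right, add_zero]
  · rw [subst_add (hasSubst_of_ord (ord_pair (ord_X 1) (ord_X 0))), h.symm, h'.symm]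
  · rw [subst_add h01, subst_add h12, subst_add (hasSubst_of_ord (ord_pair (hF 0 1) (ord_X 2))),
      subst_add (hasSubst_of_ord (ord_pair (ord_X 0) (hF 1 2)))]
    linear_combination h.rel + h'.rel

lemma IsCocycle.smul {Z : MvPowerSeries (Fin 2) κ} (h : IsCocycle F Z) (c : κ) :
    IsCocycle F (c • Z) := by
  have hF : ∀ u v : Fin 3,
      Ord 1 (subst ![(X u : MvPowerSeries (Fin 3) κ), X v] F.toPowerSeries) :=
    fun u v => (ord_formalGroup F).subst (ord_pair (ord_X u) (ord_X v))
  have h01 := hasSubst_of_ord (ord_pair (ord_X (κ := κ) (0 : Fin 3)) (ord_X 1))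
  have h12 := hasSubst_of_ord (ord_pair (ord_X (κ := κ) (1 : Fin 3)) (ord_X 2))
  refine ⟨?_, ?_, ?_⟩
  · rw [subst_smul (hasSubst_of_ord (ord_pair (ord_X 0) (ord_one_iff.2 (by simp)))), h.zero_right,
      smul_zero]
  · rw [subst_smul (hasSubst_of_ord (ord_pair (ord_X 1) (ord_X 0))), h.symm]
  · rw [subst_smul h01, subst_smul h12, subst_smul (hasSubst_of_ord (ord_pair (hF 0 1) (ord_X 2))),
      subst_smul (hasSubst_of_ord (ord_pair (ord_X 0) (hF 1 2))), ← smul_add, ← smul_add, h.rel]

/-- Pull back along `g` in both variables. -/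
def pullback (g : PowerSeries κ) (Z : MvPowerSeries (Fin 2) κ) : MvPowerSeries (Fin 2) κ :=
  subst ![PowerSeries.subst (X (0 : Fin 2) : MvPowerSeries (Fin 2) κ) g,
    PowerSeries.subst (X (1 : Fin 2) : MvPowerSeries (Fin 2) κ) g] Z

lemma ord_series {σ : Type*} {a : MvPowerSeries σ κ} (ha : Ord 1 a) {g : PowerSeries κ}
    (hg : PowerSeries.constantCoeff g = 0) : Ord 1 (PowerSeries.subst a g) :=
  ord_one_iff.2 (PowerSeries.constantCoeff_subst_eq_zero (ord_one_iff.1 ha) g hg)

lemma ord_pullback {g : PowerSeries κ} (hg : PowerSeries.constantCoeff g = 0) {D : ℕ}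
    {Z : MvPowerSeries (Fin 2) κ} (hZ : Ord D Z) : Ord D (pullback g Z) :=
  hZ.subst (ord_pair (ord_series (ord_X 0) hg) (ord_series (ord_X 1) hg))

/-- Endomorphisms pull cocycles back to cocycles. -/
lemma IsCocycle.pullback {Z : MvPowerSeries (Fin 2) κ} (h : IsCocycle F Z) {g : PowerSeries κ}
    (hg : PowerSeries.constantCoeff g = 0)
    (hhom : PowerSeries.subst F.toPowerSeries g =
      subst ![PowerSeries.subst (X (0 : Fin 2) : MvPowerSeries (Fin 2) κ) g,
        PowerSeries.subst (X (1 : Fin 2) : MvPowerSeries (Fin 2) κ) g] F.toPowerSeries) :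
    IsCocycle F (pullback g Z) := by
  have hgg : ∀ {τ : Type} (i : τ), Ord 1 (PowerSeries.subst (X i : MvPowerSeries τ κ) g) :=
    fun i => ord_series (ord_X i) hg
  have key : ∀ {τ : Type} (f f' : MvPowerSeries τ κ), Ord 1 f → Ord 1 f' →
      subst ![f, f'] (Action.pullback g Z) =
        subst ![PowerSeries.subst f g, PowerSeries.subst f' g] Z := by
    intro τ f f' hf hf'
    rw [Action.pullback, subst_comp_subst_apply (hasSubst_of_ord (ord_pair (hgg 0) (hgg 1)))
      (hasSubst_of_ord (ord_pair hf hf'))]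
    congr 1
    funext i
    fin_cases i <;> simp [subst_series (ord_pair hf hf') (ord_X _),
      subst_X (hasSubst_of_ord (ord_pair hf hf'))]
  have hF : ∀ u v : Fin 3,
      Ord 1 (subst ![(X u : MvPowerSeries (Fin 3) κ), X v] F.toPowerSeries) :=
    fun u v => (ord_formalGroup F).subst (ord_pair (ord_X u) (ord_X v))
  have hhom' : ∀ u v : Fin 3,
      PowerSeries.subst (subst ![(X u : MvPowerSeries (Fin 3) κ), X v] F.toPowerSeries) g =
        subst ![PowerSeries.subst (X u : MvPowerSeries (Fin 3) κ) g,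
          PowerSeries.subst (X v : MvPowerSeries (Fin 3) κ) g] F.toPowerSeries := by
    intro u v
    have hs := hasSubst_of_ord (ord_pair (ord_X (κ := κ) u) (ord_X v))
    rw [← subst_series (ord_pair (ord_X u) (ord_X v)) (ord_formalGroup F), hhom,
      subst_comp_subst_apply (hasSubst_of_ord (ord_pair (hgg 0) (hgg 1))) hs]
    congr 1
    funext i
    fin_cases i <;> simp [subst_series (ord_pair (ord_X u) (ord_X v)) (ord_X _), subst_X hs]
  refine ⟨?_, ?_, ?_⟩
  · rw [key _ _ (ord_X 0) (ord_one_iff.2 (by simp)),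
      PowerSeries.subst_zero_of_constantCoeff_zero hg]
    have h0 := congrArg (subst ![PowerSeries.subst (X (0 : Fin 2) : MvPowerSeries (Fin 2) κ) g,
      (0 : MvPowerSeries (Fin 2) κ)]) h.zero_right
    have hs := hasSubst_of_ord (ord_pair (hgg (0 : Fin 2)) (ord_one_iff.2 (by simp : constantCoeff
      (0 : MvPowerSeries (Fin 2) κ) = 0)))
    have hz : subst ![PowerSeries.subst (X (0 : Fin 2) : MvPowerSeries (Fin 2) κ) g,
        (0 : MvPowerSeries (Fin 2) κ)] (0 : MvPowerSeries (Fin 2) κ) = 0 := by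
      rw [← coe_substAlgHom hs, map_zero]
    rw [subst_comp_subst_apply (hasSubst_of_ord (ord_pair (ord_X 0) (ord_one_iff.2 (by simp)))) hs,
      hz] at h0
    refine Eq.trans ?_ h0
    congr 1
    funext i
    fin_cases i <;> simp [subst_X hs, hz]
  · have h0 := congrArg (subst ![PowerSeries.subst (X (0 : Fin 2) : MvPowerSeries (Fin 2) κ) g,
      PowerSeries.subst (X (1 : Fin 2) : MvPowerSeries (Fin 2) κ) g]) h.symm
    have hs := hasSubst_of_ord (ord_pair (hgg (0 : Fin 2)) (hgg 1))
    rw [subst_comp_subst_apply (hasSubst_of_ord (ord_pair (ord_X 1) (ord_X 0))) hs] at h0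
    rw [key _ _ (ord_X 1) (ord_X 0), Action.pullback]
    refine Eq.trans ?_ h0
    congr 1
    funext i
    fin_cases i <;> simp [subst_X hs]
  · rw [key _ _ (ord_X 0) (ord_X 1), key _ _ (hF 0 1) (ord_X 2), key _ _ (ord_X 1) (ord_X 2),
      key _ _ (ord_X 0) (hF 1 2), hhom', hhom']
    have hs : HasSubst fun i : Fin 3 => PowerSeries.subst (X i : MvPowerSeries (Fin 3) κ) g :=
      hasSubst_of_ord fun i => hgg i
    have h0 := congrArg (subst fun i : Fin 3 => PowerSeries.subst (X i : MvPowerSeries (Fin 3) κ) g)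
      h.rel
    rw [subst_add hs, subst_add hs,
      subst_comp_subst_apply (hasSubst_of_ord (ord_pair (ord_X 0) (ord_X 1))) hs,
      subst_comp_subst_apply (hasSubst_of_ord (ord_pair (hF 0 1) (ord_X 2))) hs,
      subst_comp_subst_apply (hasSubst_of_ord (ord_pair (ord_X 1) (ord_X 2))) hs,
      subst_comp_subst_apply (hasSubst_of_ord (ord_pair (ord_X 0) (hF 1 2))) hs] at h0
    convert h0 using 3 <;> funext i <;> fin_cases i <;>
      simp [subst_X hs, subst_comp_subst_apply (hasSubst_of_ord (ord_pair (ord_X _) (ord_X _))) hs] <;>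
      congr 1 <;> funext k <;> fin_cases k <;> simp [subst_X hs]

end Vale.Agent.P217.Action
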