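import Vale.Agent.P217.Action.Order
import Vale.Agent.P217.Action.Additive

/-!
P217: symmetric cocycles of a formal group of finite height over a field of characteristic `p`.
-/

noncomputable section

namespace Vale.Agent.P217.Action

open MvPowerSeries

variable {κ : Type*} [CommRing κ]

/-- The exponent `(a, b)`. -/
def e2 (a b : ℕ) : Fin 2 →₀ ℕ := Finsupp.single 0 a + Finsupp.single 1 b

/-- The exponent `(a, b, c)`. -/
def e3 (a b c : ℕ) : Fin 3 →₀ ℕ :=
  Finsupp.single 0 a + Finsupp.single 1 b + Finsupp.single 2 c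

lemma e2_apply (a b : ℕ) : e2 a b 0 = a ∧ e2 a b 1 = b := by simp [e2]

lemma e2_eta (d : Fin 2 →₀ ℕ) : e2 (d 0) (d 1) = d := by
  ext i
  fin_cases i <;> simp [e2]

lemma degree_e2 (a b : ℕ) : (e2 a b).degree = a + b := by simp [e2, map_add]

lemma degree_e3 (a b c : ℕ) : (e3 a b c).degree = a + b + c := by simp [e3, map_add]

lemma e3_inj {a b c a' b' c' : ℕ} (h : e3 a b c = e3 a' b' c') : a = a' ∧ b = b' ∧ c = c' :=
  ⟨by simpa [e3] using DFunLike.congr_fun h (0 : Fin 3),
    by simpa [e3] using DFunLike.congr_fun h (1 : Fin 3),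
    by simpa [e3] using DFunLike.congr_fun h (2 : Fin 3)⟩

lemma prod_e2 {M : Type*} [CommMonoid M] (a : Fin 2 → M) (e : Fin 2 →₀ ℕ) :
    (e.prod fun s k => a s ^ k) = a 0 ^ e 0 * a 1 ^ e 1 := by
  rw [Finsupp.prod_fintype _ _ (fun i => pow_zero _), Fin.prod_univ_two]

lemma ord_X {σ : Type*} (i : σ) : Ord 1 (X i : MvPowerSeries σ κ) := ord_one_iff.2 (by simp)

lemma ord_pair {σ : Type*} {f g : MvPowerSeries σ κ} (hf : Ord 1 f) (hg : Ord 1 g) :
    ∀ i : Fin 2, Ord 1 (![f, g] i) := fun i => by fin_cases i <;> assumption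

lemma coeff_subst_pair {σ : Type*} {f g : MvPowerSeries σ κ} (hf : Ord 1 f) (hg : Ord 1 g)
    (Z : MvPowerSeries (Fin 2) κ) (d : σ →₀ ℕ) (a b : ℕ)
    (h : ∀ a' b', (a' ≠ a ∨ b' ≠ b) → coeff d (f ^ a' * g ^ b') = 0) :
    coeff d (subst ![f, g] Z) = coeff (e2 a b) Z * coeff d (f ^ a * g ^ b) := by
  rw [coeff_subst (hasSubst_of_ord (ord_pair hf hg)), finsum_eq_single _ (e2 a b)]
  · simp [prod_e2, (e2_apply a b).1, (e2_apply a b).2]
  · intro e he
    rw [prod_e2]
    have hne : e 0 ≠ a ∨ e 1 ≠ b := by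
      by_contra hc
      push Not at hc
      exact he (by rw [← e2_eta e, hc.1, hc.2])
    simp [h _ _ hne]

lemma coeff_swap (Z : MvPowerSeries (Fin 2) κ) (a b : ℕ) :
    coeff (e2 a b) (subst ![X 1, X 0] Z) = coeff (e2 b a) Z := by
  classical
  have hm : ∀ a' b', (X 1 : MvPowerSeries (Fin 2) κ) ^ a' * X 0 ^ b' = monomial (e2 b' a') 1 := by
    intro a' b'
    rw [X_pow_eq, X_pow_eq, monomial_mul_monomial, one_mul, e2, add_comm]
  rw [coeff_subst_pair (ord_X 1) (ord_X 0) Z _ b a fun a' b' h => ?_]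
  · simp [hm, coeff_monomial]
  · rw [hm, coeff_monomial, if_neg]
    intro he
    have h0 := DFunLike.congr_fun he (0 : Fin 2)
    have h1 := DFunLike.congr_fun he (1 : Fin 2)
    simp [e2] at h0 h1
    omega

lemma coeff_axis (Z : MvPowerSeries (Fin 2) κ) (a : ℕ) :
    coeff (e2 a 0) (subst ![X 0, 0] Z) = coeff (e2 a 0) Z := by
  classical
  have hX : ∀ a', (X 0 : MvPowerSeries (Fin 2) κ) ^ a' = monomial (e2 a' 0) 1 := by
    intro a'
    rw [X_pow_eq, e2, Finsupp.single_zero, add_zero]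
  rw [coeff_subst_pair (ord_X 0) (ord_one_iff.2 (by simp)) Z _ a 0 fun a' b' h => ?_]
  · simp [hX]
  · rcases Nat.eq_zero_or_pos b' with rfl | hb
    · rw [pow_zero, mul_one, hX, coeff_monomial, if_neg]
      intro he
      have h0 := DFunLike.congr_fun he (0 : Fin 2)
      simp [e2] at h0
      omega
    · simp [zero_pow hb.ne']

lemma coeff_left (Z : MvPowerSeries (Fin 2) κ) (i j l : ℕ) :
    coeff (e3 i j l) (subst ![X 0 + X 1, X 2] Z) =
      coeff (e2 (i + j) l) Z * (i + j).choose i := by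
  classical
  have hcalc : ∀ a b, coeff (e3 i j l) (((X 0 + X 1) : MvPowerSeries (Fin 3) κ) ^ a * X 2 ^ b) =
      if a = i + j ∧ b = l then ((i + j).choose i : κ) else 0 := by
    intro a b
    have hterm : ∀ t ∈ Finset.range (a + 1), coeff (e3 i j l)
        ((X 0 ^ t * X 1 ^ (a - t) * (a.choose t : MvPowerSeries (Fin 3) κ)) * X 2 ^ b) =
        if t = i ∧ a - t = j ∧ b = l then (a.choose t : κ) else 0 := by
      intro t _
      rw [← map_natCast (C (σ := Fin 3) (R := κ)), X_pow_eq, X_pow_eq, X_pow_eq,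
        monomial_mul_monomial, mul_one, mul_right_comm, monomial_mul_monomial, mul_one,
        mul_comm, coeff_C_mul, coeff_monomial]
      by_cases hc : t = i ∧ a - t = j ∧ b = l
      · obtain ⟨rfl, rfl, rfl⟩ := hc
        simp [e3]
      · rw [if_neg hc, if_neg, mul_zero]
        intro he
        exact hc (by
          obtain ⟨h1, h2, h3⟩ := e3_inj (show e3 i j l = e3 t (a - t) b from he)
          exact ⟨h1.symm, h2.symm, h3.symm⟩)
    rw [add_pow, Finset.sum_mul, map_sum, Finset.sum_congr rfl hterm]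
    by_cases hc : a = i + j ∧ b = l
    · rw [if_pos hc]
      obtain ⟨rfl, rfl⟩ := hc
      rw [Finset.sum_eq_single i]
      · simp
      · intro t _ ht
        rw [if_neg fun h => ht h.1]
      · intro h
        exact absurd (Finset.mem_range.2 (by omega)) h
    · rw [if_neg hc]
      refine Finset.sum_eq_zero fun t ht => if_neg ?_
      rintro ⟨rfl, h2, rfl⟩
      exact hc ⟨by have := Finset.mem_range.1 ht; omega, rfl⟩
  rw [coeff_subst_pair ((ord_X 0).add (ord_X 1)) (ord_X 2) Z _ (i + j) l fun a' b' h => by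
    rw [hcalc, if_neg]; omega, hcalc, if_pos ⟨rfl, rfl⟩]

lemma coeff_right (Z : MvPowerSeries (Fin 2) κ) (i j l : ℕ) :
    coeff (e3 i j l) (subst ![X 0, X 1 + X 2] Z) =
      coeff (e2 i (j + l)) Z * (j + l).choose j := by
  classical
  have hcalc : ∀ a b, coeff (e3 i j l) ((X 0 : MvPowerSeries (Fin 3) κ) ^ a * (X 1 + X 2) ^ b) =
      if a = i ∧ b = j + l then ((j + l).choose j : κ) else 0 := by
    intro a b
    have hterm : ∀ t ∈ Finset.range (b + 1), coeff (e3 i j l)
        (X 0 ^ a * (X 1 ^ t * X 2 ^ (b - t) * (b.choose t : MvPowerSeries (Fin 3) κ))) =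
        if a = i ∧ t = j ∧ b - t = l then (b.choose t : κ) else 0 := by
      intro t _
      rw [← map_natCast (C (σ := Fin 3) (R := κ)), X_pow_eq, X_pow_eq, X_pow_eq,
        monomial_mul_monomial, mul_one, ← mul_assoc, monomial_mul_monomial, mul_one,
        mul_comm, coeff_C_mul, coeff_monomial, ← add_assoc]
      by_cases hc : a = i ∧ t = j ∧ b - t = l
      · obtain ⟨rfl, rfl, rfl⟩ := hc
        simp [e3]
      · rw [if_neg hc, if_neg, mul_zero]
        intro he
        exact hc (by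
          obtain ⟨h1, h2, h3⟩ := e3_inj (show e3 i j l = e3 a t (b - t) from he)
          exact ⟨h1.symm, h2.symm, h3.symm⟩)
    rw [add_pow, Finset.mul_sum, map_sum, Finset.sum_congr rfl hterm]
    by_cases hc : a = i ∧ b = j + l
    · rw [if_pos hc]
      obtain ⟨rfl, rfl⟩ := hc
      rw [Finset.sum_eq_single j]
      · simp
      · intro t _ ht
        rw [if_neg fun h => ht h.2.1]
      · intro h
        exact absurd (Finset.mem_range.2 (by omega)) h
    · rw [if_neg hc]
      refine Finset.sum_eq_zero fun t ht => if_neg ?_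
      rintro ⟨rfl, rfl, h2⟩
      exact hc ⟨rfl, by have := Finset.mem_range.1 ht; omega⟩
  rw [coeff_subst_pair (ord_X 0) ((ord_X 1).add (ord_X 2)) Z _ i (j + l) fun a' b' h => by
    rw [hcalc, if_neg]; omega, hcalc, if_pos ⟨rfl, rfl⟩]

lemma coeff_subst_avoid (Z : MvPowerSeries (Fin 2) κ) (u v : Fin 3) {d : Fin 3 →₀ ℕ} (w : Fin 3)
    (hu : u ≠ w) (hv : v ≠ w) (hw : d w ≠ 0) : coeff d (subst ![(X u : MvPowerSeries (Fin 3) κ), X v] Z) = 0 := by
  classical
  rw [coeff_subst_pair (ord_X u) (ord_X v) Z d 0 0 fun a b _ => ?_]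
  · have : d ≠ 0 := fun h => hw (by simp [h])
    simp [coeff_one, this]
  · rw [X_pow_eq, X_pow_eq, monomial_mul_monomial, coeff_monomial, if_neg]
    rintro rfl
    simp [hu.symm, hv.symm] at hw

variable (F : FormalGroup κ)

lemma ord_formalGroup : Ord 1 F.toPowerSeries := ord_one_iff.2 F.zero_constantCoeff

lemma formalGroup_linear : Ord 2 (F.toPowerSeries - (X 0 + X 1)) := by
  classical
  intro d hd
  rw [map_sub, map_add, coeff_X, coeff_X]
  rw [← e2_eta d, degree_e2] at hd
  obtain rfl | rfl | rfl : d = 0 ∨ (d = Finsupp.single 0 1 ∨ d = Finsupp.single 1 1) := by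
    rcases Nat.eq_zero_or_pos (d 0) with h0 | h0 <;> rcases Nat.eq_zero_or_pos (d 1) with h1 | h1
    · exact Or.inl (by ext i; fin_cases i <;> simp_all)
    · exact Or.inr (Or.inr (by ext i; fin_cases i <;> simp <;> omega))
    · exact Or.inr (Or.inl (by ext i; fin_cases i <;> simp <;> omega))
    · omega
  · simp [F.zero_constantCoeff, eq_comm (a := (0 : Fin 2 →₀ ℕ))]
  · simp [F.lin_coeff_X, Finsupp.single_left_inj]
  · simp [F.lin_coeff_Y, Finsupp.single_left_inj]

/-- Symmetric cocycles for `F`. -/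
structure IsCocycle (Z : MvPowerSeries (Fin 2) κ) : Prop where
  zero_right : subst ![(X 0 : MvPowerSeries (Fin 2) κ), 0] Z = 0
  symm : subst ![(X 1 : MvPowerSeries (Fin 2) κ), X 0] Z = Z
  rel : subst ![(X 0 : MvPowerSeries (Fin 3) κ), X 1] Z +
      subst ![subst ![(X 0 : MvPowerSeries (Fin 3) κ), X 1] F.toPowerSeries, X 2] Z =
    subst ![(X 1 : MvPowerSeries (Fin 3) κ), X 2] Z +
      subst ![X 0, subst ![(X 1 : MvPowerSeries (Fin 3) κ), X 2] F.toPowerSeries] Z

variable {F}

lemma IsCocycle.coeff_symm {Z : MvPowerSeries (Fin 2) κ} (h : IsCocycle F Z) (a b : ℕ) :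
    coeff (e2 a b) Z = coeff (e2 b a) Z := by
  conv_lhs => rw [← h.symm]
  exact coeff_swap Z a b

lemma IsCocycle.coeff_axis_zero {Z : MvPowerSeries (Fin 2) κ} (h : IsCocycle F Z) (a : ℕ) :
    coeff (e2 a 0) Z = 0 := by
  rw [← coeff_axis, h.zero_right, map_zero]

lemma IsCocycle.ord_two {Z : MvPowerSeries (Fin 2) κ} (h : IsCocycle F Z) : Ord 2 Z := by
  intro d hd
  rw [← e2_eta d, degree_e2] at hd
  rw [← e2_eta d]
  rcases Nat.eq_zero_or_pos (d 1) with h1 | h1
  · rw [h1]; exact h.coeff_axis_zero _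
  · rw [h.coeff_symm, show d 0 = 0 by omega]; exact h.coeff_axis_zero _

/-- The lowest part of a cocycle is additive. -/
lemma IsCocycle.lowest {κ : Type*} [Field κ] {F : FormalGroup κ} {Z : MvPowerSeries (Fin 2) κ}
    (h : IsCocycle F Z) {D : ℕ} (hD : Ord D Z) :
    IsAdditive D fun s => coeff (e2 s (D - s)) Z := by
  refine ⟨by simpa using (h.coeff_symm 0 D).trans (h.coeff_axis_zero D), fun s hs => ?_,
    fun i j hi hj hij => ?_⟩
  · rw [Nat.sub_sub_self hs, h.coeff_symm]
  · have hr := congrArg (coeff (e3 i j (D - (i + j)))) h.rel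
    have hF : ∀ u v : Fin 3, Ord 1 (subst ![(X u : MvPowerSeries (Fin 3) κ), X v] F.toPowerSeries) :=
      fun u v => (ord_formalGroup F).subst (ord_pair (ord_X u) (ord_X v))
    have hF2 : ∀ u v : Fin 3, Ord 2
        (subst ![(X u : MvPowerSeries (Fin 3) κ), X v] F.toPowerSeries - (X u + X v)) := by
      intro u v
      have hs := hasSubst_of_ord (ord_pair (ord_X (κ := κ) u) (ord_X v))
      have := (formalGroup_linear F).subst (ord_pair (ord_X (κ := κ) u) (ord_X v))
      rwa [subst_sub hs, subst_add hs, subst_X hs, subst_X hs] at this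
    have hdeg : (e3 i j (D - (i + j))).degree ≤ D := by rw [degree_e3]; omega
    rw [map_add, map_add,
      coeff_subst_avoid Z 0 1 2 (by decide) (by decide) (by simp [e3]; omega),
      coeff_subst_avoid Z 1 2 0 (by decide) (by decide) (by simp [e3]; omega),
      coeff_subst_congr hD (ord_pair (hF 0 1) (ord_X 2))
        (ord_pair ((ord_X 0).add (ord_X 1)) (ord_X 2))
        (fun k => by fin_cases k; exacts [hF2 0 1, by simp [Ord]]) hdeg,
      coeff_subst_congr hD (ord_pair (ord_X 0) (hF 1 2))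
        (ord_pair (ord_X 0) ((ord_X 1).add (ord_X 2)))
        (fun k => by fin_cases k; exacts [by simp [Ord], hF2 1 2]) hdeg,
      coeff_left, coeff_right, zero_add, zero_add] at hr
    rw [show D - i = j + (D - (i + j)) by omega]
    linear_combination hr

end Vale.Agent.P217.Action
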