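import Vale.Agent.P217.Action.Small

/-!
P217: the defect of a homomorphism of formal groups modulo a small ideal is a cocycle, and the
corrections solve a coboundary equation.
-/

noncomputable section

namespace Vale.Agent.P217.Action

open MvPowerSeries

variable {S κ : Type*} [CommRing S] [CommRing κ] {ι : Type*} {τ : Type*}

/-- Two-variable substitution into a law. -/
abbrev law2 {T : Type*} [CommRing T] (G : FormalGroup T) (u v : MvPowerSeries τ T) :
    MvPowerSeries τ T :=
  MvPowerSeries.subst ![u, v] G.toPowerSeries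

lemma ord_law2 {T : Type*} [CommRing T] (G : FormalGroup T) {u v : MvPowerSeries τ T} (hu : Ord 1 u)
    (hv : Ord 1 v) : Ord 1 (law2 G u v) :=
  (ord_formalGroup G).subst (ord_pair hu hv)

lemma subst_law2 {σ : Type*} [Finite τ] {T : Type*} [CommRing T] (G : FormalGroup T)
    {u v : MvPowerSeries τ T} (hu : Ord 1 u) (hv : Ord 1 v) {a : τ → MvPowerSeries σ T}
    (ha : ∀ s, Ord 1 (a s)) :
    MvPowerSeries.subst a (law2 G u v) =
      law2 G (MvPowerSeries.subst a u) (MvPowerSeries.subst a v) := by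
  rw [law2, subst_comp_subst_apply (hasSubst_of_ord (ord_pair hu hv)) (hasSubst_of_ord ha)]
  congr 1
  funext i
  fin_cases i <;> rfl

lemma series_law2 {T : Type*} [CommRing T] (G : FormalGroup T) {f g : PowerSeries T}
    (hf : Ord 1 (f : MvPowerSeries Unit T)) (hg : Ord 1 (g : MvPowerSeries Unit T))
    {u : MvPowerSeries τ T} (hu : Ord 1 u) :
    PowerSeries.subst u (MvPowerSeries.subst ![f, g] G.toPowerSeries : PowerSeries T) =
      law2 G (PowerSeries.subst u f) (PowerSeries.subst u g) := by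
  rw [PowerSeries.subst_def, subst_comp_subst_apply (hasSubst_of_ord (ord_pair hf hg))
    (hasSubst_one hu).const]
  congr 1
  funext i
  fin_cases i <;> rfl

/-- Interchange in a commutative law. -/
lemma law2_interchange {T : Type*} [CommRing T] (G : FormalGroup T) [G.IsComm]
    {a b c d : MvPowerSeries τ T} (ha : Ord 1 a) (hb : Ord 1 b) (hc : Ord 1 c) (hd : Ord 1 d) :
    law2 G (law2 G a b) (law2 G c d) = law2 G (law2 G a c) (law2 G b d) := by
  have hs {x : MvPowerSeries τ T} (hx : Ord 1 x) := hasSubst_one hx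
  calc law2 G (law2 G a b) (law2 G c d)
      = law2 G a (law2 G b (law2 G c d)) := G.assoc' (hs ha) (hs hb) (hs (ord_law2 G hc hd))
    _ = law2 G a (law2 G (law2 G b c) d) :=
        congrArg (law2 G a) (G.assoc' (hs hb) (hs hc) (hs hd)).symm
    _ = law2 G a (law2 G (law2 G c b) d) :=
        congrArg (fun z => law2 G a (law2 G z d)) (G.comm' (hs hb) (hs hc))
    _ = law2 G a (law2 G c (law2 G b d)) :=
        congrArg (law2 G a) (G.assoc' (hs hc) (hs hb) (hs hd))
    _ = law2 G (law2 G a c) (law2 G b d) := (G.assoc' (hs ha) (hs hc) (hs (ord_law2 G hb hd))).symm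

/-- Map a law. -/
lemma map_law2 {T U : Type*} [CommRing T] [CommRing U] (φ : T →+* U) (G : FormalGroup T)
    {u v : MvPowerSeries τ T} (hu : Ord 1 u) (hv : Ord 1 v) :
    MvPowerSeries.map φ (law2 G u v) =
      law2 (G.map φ) (MvPowerSeries.map φ u) (MvPowerSeries.map φ v) := by
  rw [law2, map_subst (hasSubst_of_ord (ord_pair hu hv))]
  congr 1
  funext i
  fin_cases i <;> rfl

lemma map_ord {σ T U : Type*} [CommRing T] [CommRing U] (φ : T →+* U) {f : MvPowerSeries σ T}
    (hf : Ord 1 f) : Ord 1 (MvPowerSeries.map φ f) :=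
  ord_one_iff.2 (by rw [constantCoeff_map, ord_one_iff.1 hf, map_zero])

lemma map_series {σ T U : Type*} [CommRing T] [CommRing U] (φ : T →+* U) (f : PowerSeries T)
    {u : MvPowerSeries σ T} (hu : Ord 1 u) :
    MvPowerSeries.map φ (PowerSeries.subst u f) =
      PowerSeries.subst (MvPowerSeries.map φ u) (PowerSeries.map φ f) := by
  rw [PowerSeries.subst_def, map_subst (hasSubst_one hu).const, PowerSeries.subst_def]
  rfl

variable (M : Small S κ ι)

/-- `E` is the defect of `f` as a homomorphism from `F` to `G`. -/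
structure IsDefect (F G : FormalGroup S) (f : PowerSeries S) (E : MvPowerSeries (Fin 2) S) :
    Prop where
  small : M.IsSmall E
  ord : Ord 1 E
  eq : PowerSeries.subst F.toPowerSeries f =
    law2 G (law2 G (PowerSeries.subst (X (0 : Fin 2) : MvPowerSeries (Fin 2) S) f)
      (PowerSeries.subst (X (1 : Fin 2) : MvPowerSeries (Fin 2) S) f)) E

variable {M}

lemma exists_defect (F G : FormalGroup S) {f : PowerSeries S}
    (hf : PowerSeries.constantCoeff f = 0)
    (h : M.IsSmall (PowerSeries.subst F.toPowerSeries f -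
      law2 G (PowerSeries.subst (X (0 : Fin 2) : MvPowerSeries (Fin 2) S) f)
        (PowerSeries.subst (X (1 : Fin 2) : MvPowerSeries (Fin 2) S) f))) :
    ∃ E, IsDefect M F G f E := by
  set rhs := law2 G (PowerSeries.subst (X (0 : Fin 2) : MvPowerSeries (Fin 2) S) f)
    (PowerSeries.subst (X (1 : Fin 2) : MvPowerSeries (Fin 2) S) f) with hrhs
  have hr : Ord 1 rhs := ord_law2 G (ord_series (ord_X 0) hf) (ord_series (ord_X 1) hf)
  have hu : IsUnit (PowerSeries.subst rhs (Small.omega G)) := by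
    rw [MvPowerSeries.isUnit_iff_constantCoeff, Small.constantCoeff_omega_subst G hr]
    exact isUnit_one
  obtain ⟨u, hu⟩ := hu
  refine ⟨(PowerSeries.subst F.toPowerSeries f - rhs) * ↑u⁻¹, h.mul_right _,
    ord_one_iff.2 ?_, ?_⟩
  · rw [map_mul, map_sub, ord_one_iff.1 hr,
      ord_one_iff.1 (ord_series (ord_formalGroup F) hf), sub_zero, zero_mul]
  · rw [law2, Small.add_small G hr (h.mul_right _) (ord_one_iff.2 (by
      rw [map_mul, map_sub, ord_one_iff.1 hr, ord_one_iff.1 (ord_series (ord_formalGroup F) hf),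
        sub_zero, zero_mul])), ← hu, Units.inv_mul_cancel_right]
    ring

/-- The defect identity at any pair of series. -/
lemma IsDefect.eq_at {F G : FormalGroup S} {f : PowerSeries S} {E : MvPowerSeries (Fin 2) S}
    (h : IsDefect M F G f E) (hf : PowerSeries.constantCoeff f = 0) {u v : MvPowerSeries τ S}
    (hu : Ord 1 u) (hv : Ord 1 v) :
    PowerSeries.subst (law2 F u v) f =
      law2 G (law2 G (PowerSeries.subst u f) (PowerSeries.subst v f))
        (MvPowerSeries.subst ![u, v] E) := by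
  have h0 := congrArg (MvPowerSeries.subst ![u, v]) h.eq
  have hfx := fun i : Fin 2 => ord_series (ord_X (κ := S) i) hf
  rw [subst_series (ord_pair hu hv) (ord_formalGroup F),
    subst_law2 G (ord_law2 G (hfx 0) (hfx 1)) h.ord (ord_pair hu hv),
    subst_law2 G (hfx 0) (hfx 1) (ord_pair hu hv), subst_series (ord_pair hu hv) (ord_X 0),
    subst_series (ord_pair hu hv) (ord_X 1), subst_X (hasSubst_of_ord (ord_pair hu hv)),
    subst_X (hasSubst_of_ord (ord_pair hu hv))] at h0
  exact h0

/-- The coordinates of a defect are cocycles of the special fibre. -/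
lemma IsDefect.isCocycle {F G : FormalGroup S} [F.IsComm] [G.IsComm] {f : PowerSeries S}
    {E : MvPowerSeries (Fin 2) S} (h : IsDefect M F G f E)
    (hf : PowerSeries.constantCoeff f = 0) {Fb : FormalGroup κ} (hFb : F.map M.q = Fb) (i : ι) :
    IsCocycle Fb (M.lamS i E) := by
  have hXm : ∀ {σ : Type} (j : σ),
      MvPowerSeries.map M.q (X j : MvPowerSeries σ S) = X j := fun j => MvPowerSeries.map_X _ j
  have hz : Ord 1 (0 : MvPowerSeries (Fin 2) S) := ord_one_iff.2 (by simp)
  refine ⟨?_, ?_, ?_⟩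
  · have h0 := h.eq_at hf (ord_X 0) hz
    rw [law2, F.add_zero (hasSubst_one (ord_X 0)), PowerSeries.subst_zero_of_constantCoeff_zero hf,
      law2, law2, G.add_zero (hasSubst_one (ord_series (ord_X 0) hf))] at h0
    conv_lhs at h0 => rw [← G.add_zero (hasSubst_one (ord_series (ord_X 0) hf))]
    have h1 := Small.cancel_small G (ord_series (ord_X 0) hf) Small.isSmall_zero
      (h.small.subst (hasSubst_of_ord (ord_pair (ord_X 0) hz))) hz
      (h.ord.subst (ord_pair (ord_X 0) hz)) h0
    have h2 := Small.lamS_subst (M := M) i h.small (ord_pair (ord_X (0 : Fin 2)) hz)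
    rw [← h1, Small.lamS_zero] at h2
    refine Eq.trans ?_ h2.symm
    congr 1
    funext s
    fin_cases s <;> simp
  · have h0 := h.eq_at hf (ord_X (1 : Fin 2)) (ord_X 0)
    have h1 := h.eq_at hf (ord_X (0 : Fin 2)) (ord_X 1)
    rw [law2, F.comm' (hasSubst_one (ord_X 1)) (hasSubst_one (ord_X 0))] at h0
    rw [← law2, h1] at h0
    have hfx := fun j : Fin 2 => ord_series (ord_X (κ := S) j) hf
    rw [show law2 G (PowerSeries.subst (X (1 : Fin 2) : MvPowerSeries (Fin 2) S) f)
        (PowerSeries.subst (X (0 : Fin 2) : MvPowerSeries (Fin 2) S) f) = law2 G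
        (PowerSeries.subst (X (0 : Fin 2) : MvPowerSeries (Fin 2) S) f)
        (PowerSeries.subst (X (1 : Fin 2) : MvPowerSeries (Fin 2) S) f) from
      G.comm' (hasSubst_one (hfx 1)) (hasSubst_one (hfx 0))] at h0
    have h2 := Small.cancel_small G (ord_law2 G (hfx 0) (hfx 1))
      (h.small.subst (hasSubst_of_ord (ord_pair (ord_X 0) (ord_X 1))))
      (h.small.subst (hasSubst_of_ord (ord_pair (ord_X 1) (ord_X 0))))
      (h.ord.subst (ord_pair (ord_X 0) (ord_X 1))) (h.ord.subst (ord_pair (ord_X 1) (ord_X 0))) h0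
    have hid : (![X 0, X 1] : Fin 2 → MvPowerSeries (Fin 2) S) = MvPowerSeries.X := by
      funext j; fin_cases j <;> rfl
    rw [hid, subst_self, id] at h2
    have h3 := Small.lamS_subst (M := M) i h.small (ord_pair (ord_X (1 : Fin 2)) (ord_X 0))
    rw [← h2] at h3
    refine Eq.trans ?_ h3.symm
    congr 1
    funext s
    fin_cases s <;> simp
  · have hx := fun j : Fin 3 => ord_X (κ := S) j
    have hfx := fun j : Fin 3 => ord_series (hx j) hf
    have hF := fun a b : Fin 3 => ord_law2 F (hx a) (hx b)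
    have hG := fun a b : Fin 3 => ord_law2 G (hfx a) (hfx b)
    set A := fun j : Fin 3 => PowerSeries.subst (X j : MvPowerSeries (Fin 3) S) f with hA
    set E01 := MvPowerSeries.subst ![(X 0 : MvPowerSeries (Fin 3) S), X 1] E
    set E12 := MvPowerSeries.subst ![(X 1 : MvPowerSeries (Fin 3) S), X 2] E
    set EL := MvPowerSeries.subst ![law2 F (X 0 : MvPowerSeries (Fin 3) S) (X 1), X 2] E
    set ER := MvPowerSeries.subst ![(X 0 : MvPowerSeries (Fin 3) S), law2 F (X 1) (X 2)] E
    have o01 : Ord 1 E01 := h.ord.subst (ord_pair (hx 0) (hx 1))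
    have o12 : Ord 1 E12 := h.ord.subst (ord_pair (hx 1) (hx 2))
    have oL : Ord 1 EL := h.ord.subst (ord_pair (hF 0 1) (hx 2))
    have oR : Ord 1 ER := h.ord.subst (ord_pair (hx 0) (hF 1 2))
    have s01 : M.IsSmall E01 := h.small.subst (hasSubst_of_ord (ord_pair (hx 0) (hx 1)))
    have s12 : M.IsSmall E12 := h.small.subst (hasSubst_of_ord (ord_pair (hx 1) (hx 2)))
    have sL : M.IsSmall EL := h.small.subst (hasSubst_of_ord (ord_pair (hF 0 1) (hx 2)))
    have sR : M.IsSmall ER := h.small.subst (hasSubst_of_ord (ord_pair (hx 0) (hF 1 2)))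
    have hs {z : MvPowerSeries (Fin 3) S} (hz : Ord 1 z) := hasSubst_one hz
    have hA3 : Ord 1 (law2 G (law2 G (A 0) (A 1)) (A 2)) := ord_law2 G (hG 0 1) (hfx 2)
    have hl : PowerSeries.subst (law2 F (law2 F (X 0) (X 1)) (X 2)) f =
        law2 G (law2 G (law2 G (A 0) (A 1)) (A 2)) (E01 + EL) := by
      rw [h.eq_at hf (hF 0 1) (hx 2), h.eq_at hf (hx 0) (hx 1)]
      change law2 G (law2 G (law2 G (law2 G (A 0) (A 1)) E01) (A 2)) EL = _
      have hswap : law2 G (law2 G (law2 G (A 0) (A 1)) E01) (A 2) =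
          law2 G (law2 G (law2 G (A 0) (A 1)) (A 2)) E01 := by
        rw [law2, G.assoc' (hs (hG 0 1)) (hs o01) (hs (hfx 2)), G.comm' (hs o01) (hs (hfx 2)),
          ← G.assoc' (hs (hG 0 1)) (hs (hfx 2)) (hs o01)]
      rw [hswap, law2, G.assoc' (hs hA3) (hs o01) (hs oL),
        Small.small_add_small G s01 sL o01 oL]
    have hr : PowerSeries.subst (law2 F (X 0) (law2 F (X 1) (X 2))) f =
        law2 G (law2 G (law2 G (A 0) (A 1)) (A 2)) (E12 + ER) := by
      rw [h.eq_at hf (hx 0) (hF 1 2), h.eq_at hf (hx 1) (hx 2)]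
      change law2 G (law2 G (A 0) (law2 G (law2 G (A 1) (A 2)) E12)) ER = _
      have hswap : law2 G (A 0) (law2 G (law2 G (A 1) (A 2)) E12) =
          law2 G (law2 G (law2 G (A 0) (A 1)) (A 2)) E12 := by
        calc law2 G (A 0) (law2 G (law2 G (A 1) (A 2)) E12)
            = law2 G (law2 G (A 0) (law2 G (A 1) (A 2))) E12 :=
              (G.assoc' (hs (hfx 0)) (hs (hG 1 2)) (hs o12)).symm
          _ = _ := congrArg (fun z => law2 G z E12)
              (G.assoc' (hs (hfx 0)) (hs (hfx 1)) (hs (hfx 2))).symm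
      rw [hswap, law2, G.assoc' (hs hA3) (hs o12) (hs oR),
        Small.small_add_small G s12 sR o12 oR]
    have hassoc : law2 F (law2 F (X 0) (X 1)) (X 2) =
        law2 F (X 0 : MvPowerSeries (Fin 3) S) (law2 F (X 1) (X 2)) :=
      F.assoc' (hs (hx 0)) (hs (hx 1)) (hs (hx 2))
    rw [hassoc, hr] at hl
    have h2 := congrArg (M.lamS i) (Small.cancel_small G hA3 (s12.add sR) (s01.add sL)
      (o12.add oR) (o01.add oL) hl).symm
    rw [Small.lamS_add i s01 sL, Small.lamS_add i s12 sR,
      Small.lamS_subst i h.small (ord_pair (hx 0) (hx 1)),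
      Small.lamS_subst i h.small (ord_pair (hx 1) (hx 2)),
      Small.lamS_subst i h.small (ord_pair (hF 0 1) (hx 2)),
      Small.lamS_subst i h.small (ord_pair (hx 0) (hF 1 2))] at h2
    convert h2 using 3 <;> funext s <;> fin_cases s <;>
      simp [map_law2 _ F (hx _) (hx _), hXm, hFb]

/-- The correction of a defect by a small series and a small change of the target. -/
lemma hom_correct_iff {F G G' : FormalGroup S} [G'.IsComm] {f : PowerSeries S}
    {E Ψ : MvPowerSeries (Fin 2) S} (hE : IsDefect M F G f E)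
    (hΨ : IsDefect M G' G PowerSeries.X Ψ) (hf : PowerSeries.constantCoeff f = 0)
    (hGG : G'.map M.q = G.map M.q) {ε : PowerSeries S} (hε : M.IsSmall (ε : MvPowerSeries Unit S))
    (hε0 : PowerSeries.constantCoeff ε = 0) :
    PowerSeries.subst F.toPowerSeries (MvPowerSeries.subst ![f, ε] G.toPowerSeries : PowerSeries S) =
      law2 G'
        (PowerSeries.subst (X (0 : Fin 2) : MvPowerSeries (Fin 2) S)
          (MvPowerSeries.subst ![f, ε] G.toPowerSeries : PowerSeries S))
        (PowerSeries.subst (X (1 : Fin 2) : MvPowerSeries (Fin 2) S)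
          (MvPowerSeries.subst ![f, ε] G.toPowerSeries : PowerSeries S)) ↔
    E + PowerSeries.subst F.toPowerSeries ε =
      MvPowerSeries.subst ![PowerSeries.subst (X (0 : Fin 2) : MvPowerSeries (Fin 2) S) f,
        PowerSeries.subst (X (1 : Fin 2) : MvPowerSeries (Fin 2) S) f] Ψ +
      (PowerSeries.subst (X (0 : Fin 2) : MvPowerSeries (Fin 2) S) ε +
        PowerSeries.subst (X (1 : Fin 2) : MvPowerSeries (Fin 2) S) ε) := by
  have hfU : Ord 1 (f : MvPowerSeries Unit S) := ord_one_iff.2 hf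
  have hεU : Ord 1 (ε : MvPowerSeries Unit S) := ord_one_iff.2 hε0
  set fx := fun j : Fin 2 => PowerSeries.subst (X j : MvPowerSeries (Fin 2) S) f
  set εx := fun j : Fin 2 => PowerSeries.subst (X j : MvPowerSeries (Fin 2) S) ε
  have ofx : ∀ j, Ord 1 (fx j) := fun j => ord_series (ord_X j) hf
  have oεx : ∀ j, Ord 1 (εx j) := fun j => ord_series (ord_X j) hε0
  have sεx : ∀ j, M.IsSmall (εx j) := fun j => hε.subst (hasSubst_one (ord_X j)).const
  have oεF : Ord 1 (PowerSeries.subst F.toPowerSeries ε) := ord_series (ord_formalGroup F) hε0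
  have sεF : M.IsSmall (PowerSeries.subst F.toPowerSeries ε) :=
    hε.subst (hasSubst_one (ord_formalGroup F)).const
  have oΨf : Ord 1 (MvPowerSeries.subst ![fx 0, fx 1] Ψ) := hΨ.ord.subst (ord_pair (ofx 0) (ofx 1))
  have sΨf : M.IsSmall (MvPowerSeries.subst ![fx 0, fx 1] Ψ) :=
    hΨ.small.subst (hasSubst_of_ord (ord_pair (ofx 0) (ofx 1)))
  have orhs : Ord 1 (law2 G (fx 0) (fx 1)) := ord_law2 G (ofx 0) (ofx 1)
  have hG' : law2 G' (fx 0) (fx 1) =
      law2 G (law2 G (fx 0) (fx 1)) (MvPowerSeries.subst ![fx 0, fx 1] Ψ) := by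
    have := hΨ.eq_at (by simp) (ofx 0) (ofx 1)
    rwa [PowerSeries.subst_X (hasSubst_one (ord_law2 G' (ofx 0) (ofx 1))),
      PowerSeries.subst_X (hasSubst_one (ofx 0)), PowerSeries.subst_X (hasSubst_one (ofx 1))] at this
  have hl : PowerSeries.subst F.toPowerSeries
      (MvPowerSeries.subst ![f, ε] G.toPowerSeries : PowerSeries S) =
      law2 G (law2 G (fx 0) (fx 1)) (E + PowerSeries.subst F.toPowerSeries ε) := by
    rw [series_law2 G hfU hεU (ord_formalGroup F), hE.eq, law2,
      G.assoc' (hasSubst_one orhs) (hasSubst_one hE.ord) (hasSubst_one oεF),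
      Small.small_add_small G hE.small sεF hE.ord oεF]
  have hr : law2 G'
      (PowerSeries.subst (X (0 : Fin 2) : MvPowerSeries (Fin 2) S)
        (MvPowerSeries.subst ![f, ε] G.toPowerSeries : PowerSeries S))
      (PowerSeries.subst (X (1 : Fin 2) : MvPowerSeries (Fin 2) S)
        (MvPowerSeries.subst ![f, ε] G.toPowerSeries : PowerSeries S)) =
      law2 G (law2 G (fx 0) (fx 1))
        (MvPowerSeries.subst ![fx 0, fx 1] Ψ + (εx 0 + εx 1)) := by
    rw [series_law2 G hfU hεU (ord_X 0), series_law2 G hfU hεU (ord_X 1)]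
    change law2 G' (law2 G (fx 0) (εx 0)) (law2 G (fx 1) (εx 1)) = _
    rw [show law2 G (fx 0) (εx 0) = law2 G' (fx 0) (εx 0) from
        (Small.add_small_congr G hGG (ofx 0) (sεx 0) (oεx 0)).symm,
      show law2 G (fx 1) (εx 1) = law2 G' (fx 1) (εx 1) from
        (Small.add_small_congr G hGG (ofx 1) (sεx 1) (oεx 1)).symm,
      law2_interchange G' (ofx 0) (oεx 0) (ofx 1) (oεx 1),
      show law2 G' (εx 0) (εx 1) = εx 0 + εx 1 from
        Small.small_add_small G' (sεx 0) (sεx 1) (oεx 0) (oεx 1),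
      show law2 G' (law2 G' (fx 0) (fx 1)) (εx 0 + εx 1) =
        law2 G (law2 G' (fx 0) (fx 1)) (εx 0 + εx 1) from
        Small.add_small_congr G hGG (ord_law2 G' (ofx 0) (ofx 1)) ((sεx 0).add (sεx 1))
          ((oεx 0).add (oεx 1)),
      hG', law2, G.assoc' (hasSubst_one orhs) (hasSubst_one oΨf)
        (hasSubst_one ((oεx 0).add (oεx 1))),
      Small.small_add_small G sΨf ((sεx 0).add (sεx 1)) oΨf ((oεx 0).add (oεx 1))]
  rw [hl, hr]
  exact ⟨Small.cancel_small G orhs (hE.small.add sεF) (sΨf.add ((sεx 0).add (sεx 1)))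
    (hE.ord.add oεF) (oΨf.add ((oεx 0).add (oεx 1))), fun h => by rw [h]⟩

end Vale.Agent.P217.Action
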