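/-
P217, block B: digits of the graded pieces `m^k / m^(k+1)`.
-/
import Vale.Agent.P217.Action.Base

noncomputable section

namespace Vale.Agent.P217.Action

open IsLocalRing MvPowerSeries

variable (p n : ℕ) [Fact p.Prime]

/-- The exponents of degree at most `k`. -/
abbrev Dig (k : ℕ) : Type :=
  {d : Fin (n - 1) → Fin (k + 1) // ∑ i, (d i : ℕ) ≤ k}

variable {n} in
/-- The exponent of a digit. -/
def Dig.exp {k : ℕ} (d : Dig n k) : Fin (n - 1) →₀ ℕ :=
  Finsupp.equivFunOnFinite.symm fun i => (d.1 i : ℕ)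

/-- The monomial `p^(k-|d|) u^d`. -/
def mu (k : ℕ) (d : Dig n k) : LT p n :=
  monomial d.exp ((p : WittVector p (Res p n)) ^ (k - d.exp.degree))

open Classical in
/-- Division by `p^j`, when possible. -/
def divP (j : ℕ) (w : WittVector p (Res p n)) : WittVector p (Res p n) :=
  if h : ∃ q, w = (p : WittVector p (Res p n)) ^ j * q then h.choose else 0

/-- The digit of `a` at `d`. -/
def lam (k : ℕ) (d : Dig n k) (a : LT p n) : Res p n :=
  WittVector.constantCoeff (divP p n (k - d.exp.degree) (coeff d.exp a))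

variable {p n}

lemma degree_exp {k : ℕ} (d : Dig n k) : d.exp.degree ≤ k := by
  rw [Finsupp.degree_eq_sum]
  simpa [Dig.exp] using d.2

lemma exp_injective {k : ℕ} : Function.Injective (Dig.exp : Dig n k → _) := fun d e h =>
  Subtype.ext (funext fun i => Fin.ext (by simpa [Dig.exp] using DFunLike.congr_fun h i))

lemma exists_dig {k : ℕ} {t : Fin (n - 1) →₀ ℕ} (h : t.degree ≤ k) : ∃ d : Dig n k, d.exp = t := by
  have hi : ∀ i, t i < k + 1 := fun i => Nat.lt_succ_of_le ((Finsupp.le_degree i t).trans h)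
  refine ⟨⟨fun i => ⟨t i, hi i⟩, ?_⟩, Finsupp.ext fun i => by simp [Dig.exp]⟩
  simpa [Finsupp.degree_eq_sum] using h

lemma divP_spec {j : ℕ} {w : WittVector p (Res p n)}
    (h : w ∈ maximalIdeal (WittVector p (Res p n)) ^ j) :
    w = (p : WittVector p (Res p n)) ^ j * divP p n j w := by
  have hex : ∃ q, w = (p : WittVector p (Res p n)) ^ j * q := by
    rw [Vale.Agent.P202.Mixed.Cohen.maximalIdeal_witt, Ideal.span_singleton_pow,
      Ideal.mem_span_singleton'] at h
    obtain ⟨q, hq⟩ := h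
    exact ⟨q, by rw [← hq, mul_comm]⟩
  rw [divP, dif_pos hex]
  exact hex.choose_spec

lemma divP_mul (j : ℕ) (q : WittVector p (Res p n)) :
    divP p n j ((p : WittVector p (Res p n)) ^ j * q) = q := by
  have h := divP_spec (p := p) (n := n) (j := j) (w := (p : WittVector p (Res p n)) ^ j * q) (by
    rw [Vale.Agent.P202.Mixed.Cohen.maximalIdeal_witt, Ideal.span_singleton_pow]
    exact Ideal.mul_mem_right _ _ (Ideal.mem_span_singleton_self _))
  exact (mul_left_cancel₀ (pow_ne_zero _ (WittVector.p_nonzero p (Res p n))) h).symm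

lemma lam_eq {k : ℕ} {d : Dig n k} {a : LT p n} {q : WittVector p (Res p n)}
    (h : coeff d.exp a = (p : WittVector p (Res p n)) ^ (k - d.exp.degree) * q) :
    lam p n k d a = WittVector.constantCoeff q := by
  rw [lam, h, divP_mul]

lemma coeff_eq_of_mem {k : ℕ} (d : Dig n k) {a : LT p n}
    (ha : a ∈ maximalIdeal (LT p n) ^ k) :
    coeff d.exp a = (p : WittVector p (Res p n)) ^ (k - d.exp.degree) *
      divP p n (k - d.exp.degree) (coeff d.exp a) :=
  divP_spec (Vale.Agent.P202.Mixed.coeff_mem_of_mem_maximalIdeal_pow ha d.exp)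

lemma lam_add {k : ℕ} (d : Dig n k) {a b : LT p n} (ha : a ∈ maximalIdeal (LT p n) ^ k)
    (hb : b ∈ maximalIdeal (LT p n) ^ k) :
    lam p n k d (a + b) = lam p n k d a + lam p n k d b := by
  rw [lam_eq (q := divP p n _ (coeff d.exp a) + divP p n _ (coeff d.exp b)), map_add]
  · rfl
  · rw [map_add, mul_add, ← coeff_eq_of_mem d ha, ← coeff_eq_of_mem d hb]

lemma lam_zero {k : ℕ} (d : Dig n k) : lam p n k d 0 = 0 := by
  rw [lam_eq (q := 0) (by simp), map_zero]

lemma lam_eq_zero_of_mem {k : ℕ} (d : Dig n k) {a : LT p n}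
    (ha : a ∈ maximalIdeal (LT p n) ^ (k + 1)) : lam p n k d a = 0 := by
  have h := divP_spec (Vale.Agent.P202.Mixed.coeff_mem_of_mem_maximalIdeal_pow ha d.exp)
  rw [show k + 1 - d.exp.degree = (k - d.exp.degree) + 1 by have := degree_exp d; omega,
    pow_succ, mul_assoc] at h
  rw [lam_eq h, map_mul, map_natCast, CharP.cast_eq_zero, zero_mul]

lemma lam_neg {k : ℕ} (d : Dig n k) {a : LT p n} (ha : a ∈ maximalIdeal (LT p n) ^ k) :
    lam p n k d (-a) = -lam p n k d a := by
  rw [eq_neg_iff_add_eq_zero, ← lam_add d (neg_mem ha) ha, neg_add_cancel, lam_zero]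

lemma lam_sub {k : ℕ} (d : Dig n k) {a b : LT p n} (ha : a ∈ maximalIdeal (LT p n) ^ k)
    (hb : b ∈ maximalIdeal (LT p n) ^ k) :
    lam p n k d (a - b) = lam p n k d a - lam p n k d b := by
  rw [sub_eq_add_neg, lam_add d ha (neg_mem hb), lam_neg d hb, ← sub_eq_add_neg]

lemma lam_sum {k : ℕ} (d : Dig n k) {ι : Type*} (s : Finset ι) (f : ι → LT p n)
    (hf : ∀ i ∈ s, f i ∈ maximalIdeal (LT p n) ^ k) :
    lam p n k d (∑ i ∈ s, f i) = ∑ i ∈ s, lam p n k d (f i) := by
  classical
  induction s using Finset.induction_on with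
  | empty => simp [lam_zero]
  | insert i s hi ih =>
    have hs : ∀ j ∈ s, f j ∈ maximalIdeal (LT p n) ^ k :=
      fun j hj => hf j (Finset.mem_insert_of_mem hj)
    rw [Finset.sum_insert hi, Finset.sum_insert hi,
      lam_add d (hf i (Finset.mem_insert_self i s)) (Ideal.sum_mem _ hs), ih hs]

lemma lam_mul {k : ℕ} (d : Dig n k) (r : LT p n) {a : LT p n}
    (ha : a ∈ maximalIdeal (LT p n) ^ k) : lam p n k d (r * a) = red p n r * lam p n k d a := by
  have h1 : (r - MvPowerSeries.C (constantCoeff r)) * a ∈ maximalIdeal (LT p n) ^ (k + 1) := by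
    rw [pow_succ']
    exact Ideal.mul_mem_mul (sub_C_constantCoeff_mem r) ha
  have h2 := coeff_eq_of_mem d ha
  rw [show r * a = (r - MvPowerSeries.C (constantCoeff r)) * a +
    MvPowerSeries.C (constantCoeff r) * a by ring,
    lam_add d (Ideal.pow_le_pow_right (Nat.le_succ k) h1) (Ideal.mul_mem_left _ _ ha),
    lam_eq_zero_of_mem d h1, zero_add,
    lam_eq (q := constantCoeff r * divP p n (k - d.exp.degree) (coeff d.exp a)), map_mul]
  · rfl
  · rw [coeff_C_mul, mul_left_comm, ← h2]

lemma mu_mem {k : ℕ} (d : Dig n k) : mu p n k d ∈ maximalIdeal (LT p n) ^ k := by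
  classical
  refine Vale.Agent.P202.Mixed.mem_maximalIdeal_pow_of_coeff_mem fun t => ?_
  rw [mu, coeff_monomial]
  split_ifs with ht
  · rw [ht, Vale.Agent.P202.Mixed.Cohen.maximalIdeal_witt, Ideal.span_singleton_pow]
    exact Ideal.mem_span_singleton_self _
  · exact zero_mem _

lemma lam_lift_mul_mu {k : ℕ} (d e : Dig n k) (x : Res p n) :
    lam p n k d (lift p n x * mu p n k e) = if d = e then x else 0 := by
  classical
  rw [lam_mul d _ (mu_mem e), red_lift]
  by_cases h : d = e
  · subst h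
    rw [if_pos rfl, lam_eq (q := 1) (by simp [mu]), map_one, mul_one]
  · rw [if_neg h, lam_eq (q := 0), map_zero, mul_zero]
    rw [mu, coeff_monomial, if_neg (fun e' => h (exp_injective e')), mul_zero]

/-- The digits give the class modulo `m^(k+1)`. -/
lemma sub_sum_mem {k : ℕ} {a : LT p n} (ha : a ∈ maximalIdeal (LT p n) ^ k) :
    a - ∑ d, lift p n (lam p n k d a) * mu p n k d ∈ maximalIdeal (LT p n) ^ (k + 1) := by
  classical
  refine Vale.Agent.P202.Mixed.mem_maximalIdeal_pow_of_coeff_mem fun t => ?_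
  rcases Nat.lt_or_ge k t.degree with h | h
  · rw [Nat.sub_eq_zero_of_le (show k + 1 ≤ t.degree from h), pow_zero, Ideal.one_eq_top]
    trivial
  obtain ⟨d, rfl⟩ := exists_dig (n := n) h
  rw [map_sub, map_sum, Finset.sum_eq_single d]
  · rw [lift, coeff_C_mul, mu, coeff_monomial, if_pos rfl,
      show k + 1 - d.exp.degree = (k - d.exp.degree) + 1 by omega, pow_succ,
      coeff_eq_of_mem d ha, mul_comm (WittVector.teichmuller p _), ← mul_sub]
    refine Ideal.mul_mem_mul ?_ ?_
    · rw [Vale.Agent.P202.Mixed.Cohen.maximalIdeal_witt, Ideal.span_singleton_pow]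
      exact Ideal.mem_span_singleton_self _
    · rw [mem_maximalIdeal, mem_nonunits_iff]
      refine fun hu => (hu.map WittVector.constantCoeff).ne_zero ?_
      rw [map_sub, sub_eq_zero]
      exact (WittVector.teichmuller_coeff_zero p _).symm
  · intro e _ he
    rw [lift, coeff_C_mul, mu, coeff_monomial, if_neg (fun h' => he (exp_injective h').symm),
      mul_zero]
  · simp

/-- An element of `m^k` lies in `m^(k+1)` exactly when its digits vanish. -/
lemma mem_succ_iff {k : ℕ} {a : LT p n} (ha : a ∈ maximalIdeal (LT p n) ^ k) :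
    a ∈ maximalIdeal (LT p n) ^ (k + 1) ↔ ∀ d, lam p n k d a = 0 := by
  refine ⟨fun h d => lam_eq_zero_of_mem d h, fun h => ?_⟩
  have := sub_sum_mem ha
  simpa [h, lift] using this

/-- Digits can be prescribed. -/
lemma exists_digits (k : ℕ) (c : Dig n k → Res p n) :
    ∃ a ∈ maximalIdeal (LT p n) ^ k, ∀ d, lam p n k d a = c d := by
  classical
  refine ⟨∑ e, lift p n (c e) * mu p n k e,
    Ideal.sum_mem _ fun e _ => Ideal.mul_mem_left _ _ (mu_mem e), fun d => ?_⟩
  rw [lam_sum d _ _ fun e _ => Ideal.mul_mem_left _ _ (mu_mem e)]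
  simp [lam_lift_mul_mu]

end Vale.Agent.P217.Action
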