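import Vale.Agent.P217.Action.Step
import Vale.Agent.P217.Action.Bij
import Vale.Agent.P217.Spec

/-!
P217, block B: existence, uniqueness and bijectivity of the action of the stabilizer group.
-/

noncomputable section

namespace Vale.Agent.P217.Action

open MvPowerSeries IsLocalRing

variable {p n : ℕ} [Fact p.Prime] {F : FormalGroup (LT p n)}

lemma telescope {a : ℕ → LT p n} (h : ∀ j, a (j + 1) - a j ∈ maximalIdeal (LT p n) ^ j) {k l : ℕ}
    (hkl : k ≤ l) : a l - a k ∈ maximalIdeal (LT p n) ^ k := by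
  induction l, hkl using Nat.le_induction with
  | base => simp
  | succ l hkl ih =>
    rw [← sub_add_sub_cancel (a (l + 1)) (a l) (a k)]
    exact add_mem (Ideal.pow_le_pow_right hkl (h l)) ih

lemma HomMod.pred {k : ℕ} {φ : LT p n →ₐ[WittVector p (Res p n)] LT p n}
    {f : PowerSeries (LT p n)} (hf : PowerSeries.constantCoeff f = 0) (h : HomMod F (k + 1) φ f) :
    HomMod F k φ f :=
  (homMod_iff F hf).2 fun d => Ideal.pow_le_pow_right (Nat.le_succ k) ((homMod_iff F hf).1 h d)

/-- A lift modulo `m^(j+1)`. -/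
structure Approx (F : FormalGroup (LT p n)) (g : PowerSeries (Res p n)) (j : ℕ) where
  /-- the endomorphism -/
  φ : LT p n →ₐ[WittVector p (Res p n)] LT p n
  /-- the lift -/
  f : PowerSeries (LT p n)
  zero : PowerSeries.constantCoeff f = 0
  red_eq : PowerSeries.map (red p n) f = g
  hom : HomMod F (j + 1) φ f

variable (hF : LawFacts p n F) (hn : 1 ≤ n) {g : PowerSeries (Res p n)}
  (hg : IsStabilizer p n F g)

include hF hn hg

/-- The action exists. -/
theorem exists_action : ∃ φ, IsAction p n F g φ := by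
  classical
  let f₀ : PowerSeries (LT p n) := PowerSeries.mk fun b => lift p n (PowerSeries.coeff b g)
  have hf₀ : PowerSeries.map (red p n) f₀ = g := PowerSeries.ext fun b => by simp [f₀, red_lift]
  have hf₀0 : PowerSeries.constantCoeff f₀ = 0 := by simp [f₀, hg.1.1, lift]
  have hf₀h : HomMod F 1 (AlgHom.id _ _) f₀ := homMod_one F hf₀0 (by rw [hf₀]; exact hg.1)
  have hstep : ∀ j (x : Approx F g j), ∃ y : Approx F g (j + 1),
      (∀ i, y.φ (X i) - x.φ (X i) ∈ maximalIdeal (LT p n) ^ (j + 1)) ∧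
      ∀ b, PowerSeries.coeff b y.f - PowerSeries.coeff b x.f ∈
        maximalIdeal (LT p n) ^ (j + 1) := by
    intro j x
    obtain ⟨φ', f', h0, hr, hh, hφ, hff⟩ := exists_step (Nat.le_add_left 1 j) hF hn hg
      x.zero x.red_eq x.hom
    exact ⟨⟨φ', f', h0, hr, hh⟩, hφ, hff⟩
  choose nx hnxφ hnxf using hstep
  obtain ⟨s, hs⟩ : ∃ s : ∀ j, Approx F g j, ∀ j, s (j + 1) = nx j (s j) :=
    ⟨fun j => Nat.rec ⟨AlgHom.id _ _, f₀, hf₀0, hf₀, hf₀h⟩ (fun j x => nx j x) j, fun _ => rfl⟩
  have hsφ : ∀ i j, (s (j + 1)).φ (X i) - (s j).φ (X i) ∈ maximalIdeal (LT p n) ^ j :=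
    fun i j => by rw [hs]; exact Ideal.pow_le_pow_right (Nat.le_succ j) (hnxφ j (s j) i)
  have hsf : ∀ b j, PowerSeries.coeff b (s (j + 1)).f - PowerSeries.coeff b (s j).f ∈
      maximalIdeal (LT p n) ^ j :=
    fun b j => by rw [hs]; exact Ideal.pow_le_pow_right (Nat.le_succ j) (hnxf j (s j) b)
  have hlimφ : ∀ i, ∃ L, ∀ k, L - (s k).φ (X i) ∈ maximalIdeal (LT p n) ^ k := fun i =>
    exists_limit p n (fun j => (s j).φ (X i)) fun {k l} h =>
      telescope (a := fun j => (s j).φ (X i)) (hsφ i) h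
  have hlimf : ∀ b, ∃ L, ∀ k, L - PowerSeries.coeff b (s k).f ∈ maximalIdeal (LT p n) ^ k :=
    fun b => exists_limit p n (fun j => PowerSeries.coeff b (s j).f) fun {k l} h =>
      telescope (a := fun j => PowerSeries.coeff b (s j).f) (hsf b) h
  choose a ha using hlimφ
  choose c hc using hlimf
  have ham : ∀ i, a i ∈ maximalIdeal (LT p n) := fun i => by
    have h1 := ha i 1
    rw [pow_one] at h1
    rw [← sub_add_cancel (a i) ((s 1).φ (X i))]
    exact add_mem h1 (endo_mem_maximalIdeal _ (X_mem_maximalIdeal i))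
  have hc0 : c 0 = 0 := eq_of_forall_sub_mem p n fun k => by
    have h1 := hc 0 k
    rw [PowerSeries.coeff_zero_eq_constantCoeff_apply, (s k).zero] at h1
    simpa using h1
  let f : PowerSeries (LT p n) := PowerSeries.mk c
  have hf0 : PowerSeries.constantCoeff f = 0 := by simp [f, hc0]
  refine ⟨endo p n a ham, f, PowerSeries.ext fun b => ?_, isHom_of_homMod F hf0 fun k => ?_⟩
  · have h1 := hc b 1
    rw [pow_one, mem_maximal_iff, map_sub, sub_eq_zero] at h1
    rw [PowerSeries.coeff_map, PowerSeries.coeff_mk, h1, ← PowerSeries.coeff_map, (s 1).red_eq]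
  · refine homMod_congr F (fun i => ?_) (fun b => ?_) (HomMod.pred (s k).zero (s k).hom)
    · rw [endo_X, ← neg_mem_iff, neg_sub]
      exact ha i k
    · rw [PowerSeries.coeff_mk, ← neg_mem_iff, neg_sub]
      exact hc b k

/-- The action is unique. -/
theorem unique_action {φ φ' : LT p n →ₐ[WittVector p (Res p n)] LT p n}
    (h : IsAction p n F g φ) (h' : IsAction p n F g φ') : φ' = φ := by
  obtain ⟨f, hfg, hom⟩ := h
  obtain ⟨f', hfg', hom'⟩ := h'
  have key : ∀ j, (∀ i, φ' (X i) - φ (X i) ∈ maximalIdeal (LT p n) ^ (j + 1)) ∧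
      ∀ b, PowerSeries.coeff b f' - PowerSeries.coeff b f ∈
        maximalIdeal (LT p n) ^ (j + 1) := by
    intro j
    induction j with
    | zero =>
      refine ⟨fun i => ?_, fun b => ?_⟩
      · rw [zero_add, pow_one]
        exact sub_mem (endo_mem_maximalIdeal _ (X_mem_maximalIdeal i))
          (endo_mem_maximalIdeal _ (X_mem_maximalIdeal i))
      · rw [zero_add, pow_one, mem_maximal_iff, map_sub, ← PowerSeries.coeff_map,
          ← PowerSeries.coeff_map, hfg, hfg', sub_self]
    | succ j ih =>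
      exact unique_step (Nat.le_add_left 1 j) hF hn hg hom.1 hfg (homMod_of_isHom F hom _)
        (homMod_of_isHom F hom' _) ih.1 ih.2
  exact endo_ext fun i => eq_of_forall_sub_mem p n fun k =>
    Ideal.pow_le_pow_right (Nat.le_succ k) ((key k).1 i)

omit hF hn hg

/-- Block B: the action exists, is unique and is bijective. -/
theorem action (hn : 1 ≤ n) (hF : FactsStatement p n) : ActionStatement p n := by
  intro F hU
  have hL := (hF F hU).1
  have hex : ∀ g, IsStabilizer p n F g → ∃! φ, IsAction p n F g φ := fun g hg => by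
    obtain ⟨φ, hφ⟩ := exists_action hL hn hg
    exact ⟨φ, hφ, fun ψ hψ => unique_action hL hn hg hφ hψ⟩
  exact ⟨hex, bijective_action F hU hex⟩

end Vale.Agent.P217.Action
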