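import Mathlib

/-!
P217: series vanishing below a degree, and their lowest parts under substitution.
-/

noncomputable section

namespace Vale.Agent.P217.Action

open MvPowerSeries

variable {σ τ R : Type*} [CommRing R]

/-- All coefficients in degrees below `D` vanish. -/
def Ord (D : ℕ) (f : MvPowerSeries σ R) : Prop :=
  ∀ d : σ →₀ ℕ, d.degree < D → coeff d f = 0

lemma ord_zero (f : MvPowerSeries σ R) : Ord 0 f := fun _ h => absurd h (Nat.not_lt_zero _)

lemma Ord.mono {D D' : ℕ} {f : MvPowerSeries σ R} (hf : Ord D f) (h : D' ≤ D) : Ord D' f :=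
  fun d hd => hf d (lt_of_lt_of_le hd h)

lemma Ord.add {D : ℕ} {f g : MvPowerSeries σ R} (hf : Ord D f) (hg : Ord D g) : Ord D (f + g) :=
  fun d hd => by rw [map_add, hf d hd, hg d hd, add_zero]

lemma Ord.sub {D : ℕ} {f g : MvPowerSeries σ R} (hf : Ord D f) (hg : Ord D g) : Ord D (f - g) :=
  fun d hd => by rw [map_sub, hf d hd, hg d hd, sub_zero]

lemma Ord.mul {D E : ℕ} {f g : MvPowerSeries σ R} (hf : Ord D f) (hg : Ord E g) :
    Ord (D + E) (f * g) := by
  classical
  intro d hd
  rw [coeff_mul]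
  refine Finset.sum_eq_zero fun x hx => ?_
  rw [Finset.HasAntidiagonal.mem_antidiagonal] at hx
  have h := congrArg Finsupp.degree hx
  rw [map_add] at h
  rcases lt_or_ge x.1.degree D with h1 | h1
  · rw [hf _ h1, zero_mul]
  · rw [hg _ (by omega), mul_zero]

lemma Ord.pow {D : ℕ} {f : MvPowerSeries σ R} (hf : Ord D f) (k : ℕ) : Ord (k * D) (f ^ k) := by
  induction k with
  | zero => exact (ord_zero _).mono (by simp)
  | succ k ih => rw [pow_succ, Nat.succ_mul]; exact ih.mul hf

lemma ord_one_iff {f : MvPowerSeries σ R} : Ord 1 f ↔ constantCoeff f = 0 := by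
  constructor
  · intro h
    simpa using h 0 (by simp)
  · intro h d hd
    obtain rfl : d = 0 := (Finsupp.degree_eq_zero_iff d).1 (by omega)
    simpa using h

/-- Congruent series have congruent powers. -/
lemma ord_pow_sub {f g : MvPowerSeries σ R} (hf : Ord 1 f) (hg : Ord 1 g) (h : Ord 2 (f - g))
    (k : ℕ) : Ord (k + 1) (f ^ k - g ^ k) := by
  induction k with
  | zero => simp [Ord]
  | succ k ih =>
    rw [show f ^ (k + 1) - g ^ (k + 1) = (f ^ k - g ^ k) * f + g ^ k * (f - g) by ring]
    refine (ih.mul hf).add ?_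
    have := (hg.pow k).mul h
    exact this.mono (by omega)

lemma ord_prod {ι : Type*} (s : Finset ι) (e : ι → ℕ) {f : ι → MvPowerSeries σ R}
    (hf : ∀ i ∈ s, Ord (e i) (f i)) : Ord (∑ i ∈ s, e i) (∏ i ∈ s, f i) := by
  classical
  induction s using Finset.induction_on with
  | empty => exact (ord_zero _).mono (by simp)
  | insert i s hi ih =>
    rw [Finset.sum_insert hi, Finset.prod_insert hi]
    exact (hf i (Finset.mem_insert_self i s)).mul (ih fun j hj => hf j (Finset.mem_insert_of_mem hj))

lemma ord_prod_sub {ι : Type*} (s : Finset ι) (e : ι → ℕ) {f g : ι → MvPowerSeries σ R}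
    (hf : ∀ i ∈ s, Ord (e i) (f i)) (hg : ∀ i ∈ s, Ord (e i) (g i))
    (h : ∀ i ∈ s, Ord (e i + 1) (f i - g i)) :
    Ord (∑ i ∈ s, e i + 1) (∏ i ∈ s, f i - ∏ i ∈ s, g i) := by
  classical
  induction s using Finset.induction_on with
  | empty => simp [Ord]
  | insert i s hi ih =>
    rw [Finset.sum_insert hi, Finset.prod_insert hi, Finset.prod_insert hi,
      show f i * ∏ j ∈ s, f j - g i * ∏ j ∈ s, g j =
        (f i - g i) * ∏ j ∈ s, f j + g i * (∏ j ∈ s, f j - ∏ j ∈ s, g j) by ring]
    have hs := Finset.subset_insert i s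
    refine (((h i (Finset.mem_insert_self i s)).mul
      (ord_prod s e fun j hj => hf j (hs hj))).mono (by omega)).add ?_
    exact ((hg i (Finset.mem_insert_self i s)).mul
      (ih (fun j hj => hf j (hs hj)) (fun j hj => hg j (hs hj)) fun j hj => h j (hs hj))).mono
      (by omega)

variable [Finite σ]

omit [Finite σ] in
lemma ord_monomial {a : σ → MvPowerSeries τ R} (ha : ∀ i, Ord 1 (a i)) (e : σ →₀ ℕ) :
    Ord e.degree (e.prod fun s k => a s ^ k) :=
  ord_prod e.support (fun i => e i) fun i _ => ((ha i).pow (e i)).mono (by omega)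

lemma hasSubst_of_ord {a : σ → MvPowerSeries τ R} (ha : ∀ i, Ord 1 (a i)) : HasSubst a :=
  hasSubst_of_constantCoeff_zero fun i => ord_one_iff.1 (ha i)

/-- Substitution keeps the order. -/
lemma Ord.subst {D : ℕ} {f : MvPowerSeries σ R} (hf : Ord D f) {a : σ → MvPowerSeries τ R}
    (ha : ∀ i, Ord 1 (a i)) : Ord D (MvPowerSeries.subst a f) := by
  intro d hd
  rw [coeff_subst (hasSubst_of_ord ha)]
  refine finsum_eq_zero_of_forall_eq_zero fun e => ?_
  rcases lt_or_ge e.degree D with h | h
  · rw [hf e h, zero_smul]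
  · rw [ord_monomial ha e d (by omega), smul_zero]

/-- The lowest part of a substitution sees only the linear parts. -/
lemma coeff_subst_congr {D : ℕ} {f : MvPowerSeries σ R} (hf : Ord D f)
    {a b : σ → MvPowerSeries τ R} (ha : ∀ i, Ord 1 (a i)) (hb : ∀ i, Ord 1 (b i))
    (hab : ∀ i, Ord 2 (a i - b i)) {d : τ →₀ ℕ} (hd : d.degree ≤ D) :
    coeff d (MvPowerSeries.subst a f) = coeff d (MvPowerSeries.subst b f) := by
  rw [coeff_subst (hasSubst_of_ord ha), coeff_subst (hasSubst_of_ord hb)]
  refine finsum_congr fun e => ?_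
  rcases lt_or_ge e.degree D with h | h
  · rw [hf e h, zero_smul, zero_smul]
  · congr 1
    have h2 : Ord (e.degree + 1)
        ((e.prod fun s k => a s ^ k) - e.prod fun s k => b s ^ k) :=
      ord_prod_sub e.support (fun i => e i) (fun i _ => ((ha i).pow (e i)).mono (by omega))
        (fun i _ => ((hb i).pow (e i)).mono (by omega)) fun i _ => ord_pow_sub (ha i) (hb i) (hab i) _
    have := h2 d (by omega)
    rwa [map_sub, sub_eq_zero] at this

end Vale.Agent.P217.Action
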