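import Vale.Agent.P217.Action.Classes
import Vale.Agent.P217.Action.Digits
import Vale.Agent.P217.Cont.Core

/-!
P217: the graded pieces of the maximal ideal as small ideals, and homomorphisms modulo its powers.
-/

noncomputable section

namespace Vale.Agent.P217.Action

open MvPowerSeries IsLocalRing

variable {p n : ℕ} [Fact p.Prime]

/-- The quotient map to `LT / m^k`. -/
abbrev proj (p n : ℕ) [Fact p.Prime] (k : ℕ) :
    LT p n →+* LT p n ⧸ maximalIdeal (LT p n) ^ k :=
  Ideal.Quotient.mk _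

lemma proj_eq_zero {k : ℕ} {a : LT p n} : proj p n k a = 0 ↔ a ∈ maximalIdeal (LT p n) ^ k :=
  Ideal.Quotient.eq_zero_iff_mem

lemma proj_eq_iff {k : ℕ} {a b : LT p n} :
    proj p n k a = proj p n k b ↔ a - b ∈ maximalIdeal (LT p n) ^ k :=
  Ideal.Quotient.eq

lemma out_sub_mem {k : ℕ} (a : LT p n) :
    Quotient.out (proj p n (k + 1) a) - a ∈ maximalIdeal (LT p n) ^ (k + 1) :=
  proj_eq_iff.1 (Ideal.Quotient.mk_out _)

/-- A digit of a class modulo `m^(k+1)`. -/
def qlam (k : ℕ) (d : Dig n k) (x : LT p n ⧸ maximalIdeal (LT p n) ^ (k + 1)) : Res p n :=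
  lam p n k d (Quotient.out x)

lemma qlam_proj {k : ℕ} (d : Dig n k) {a : LT p n} (ha : a ∈ maximalIdeal (LT p n) ^ k) :
    qlam k d (proj p n (k + 1) a) = lam p n k d a := by
  have h := out_sub_mem (k := k) a
  have h1 := Ideal.pow_le_pow_right (Nat.le_succ k) h
  rw [qlam, show Quotient.out (proj p n (k + 1) a) =
    (Quotient.out (proj p n (k + 1) a) - a) + a from (sub_add_cancel _ _).symm,
    lam_add d h1 ha, lam_eq_zero_of_mem d h, zero_add]

lemma red_eq_zero_of_mem {k : ℕ} (hk : 1 ≤ k) {a : LT p n}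
    (ha : a ∈ maximalIdeal (LT p n) ^ k) : red p n a = 0 :=
  (mem_maximal_iff p n a).1 (Ideal.pow_le_self (by omega) ha)

variable (p n)

/-- The residue map of `LT / m^(k+1)`. -/
def qred (k : ℕ) : LT p n ⧸ maximalIdeal (LT p n) ^ (k + 1) →+* Res p n :=
  Ideal.Quotient.lift _ (red p n) fun _ ha => red_eq_zero_of_mem (Nat.le_add_left 1 k) ha

lemma qred_proj (k : ℕ) (a : LT p n) : qred p n k (proj p n (k + 1) a) = red p n a := rfl

lemma qred_comp (k : ℕ) : (qred p n k).comp (proj p n (k + 1)) = red p n := rfl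

/-- The small ideal `m^k / m^(k+1)`. -/
def qSmall (k : ℕ) (hk : 1 ≤ k) :
    Small (LT p n ⧸ maximalIdeal (LT p n) ^ (k + 1)) (Res p n) (Dig n k) where
  q := qred p n k
  J := (maximalIdeal (LT p n) ^ k).map (proj p n (k + 1))
  q_eq_zero x hx := by
    obtain ⟨a, ha, rfl⟩ := (Ideal.mem_map_iff_of_surjective _ Ideal.Quotient.mk_surjective).1 hx
    exact red_eq_zero_of_mem hk ha
  mul_eq_zero s x hx hs := by
    obtain ⟨a, ha, rfl⟩ := (Ideal.mem_map_iff_of_surjective _ Ideal.Quotient.mk_surjective).1 hx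
    obtain ⟨r, rfl⟩ := Ideal.Quotient.mk_surjective s
    rw [← map_mul, proj_eq_zero, pow_succ']
    exact Ideal.mul_mem_mul ((mem_maximal_iff p n r).2 hs) ha
  lam := qlam k
  lam_add d x hx y hy := by
    obtain ⟨a, ha, rfl⟩ := (Ideal.mem_map_iff_of_surjective _ Ideal.Quotient.mk_surjective).1 hx
    obtain ⟨b, hb, rfl⟩ := (Ideal.mem_map_iff_of_surjective _ Ideal.Quotient.mk_surjective).1 hy
    rw [← map_add, qlam_proj d (add_mem ha hb), qlam_proj d ha, qlam_proj d hb, lam_add d ha hb]
  lam_mul d s x hx := by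
    obtain ⟨a, ha, rfl⟩ := (Ideal.mem_map_iff_of_surjective _ Ideal.Quotient.mk_surjective).1 hx
    obtain ⟨r, rfl⟩ := Ideal.Quotient.mk_surjective s
    rw [← map_mul, qlam_proj d (Ideal.mul_mem_left _ r ha), qlam_proj d ha, lam_mul d r ha,
      qred_proj]
  lam_ext x hx h := by
    obtain ⟨a, ha, rfl⟩ := (Ideal.mem_map_iff_of_surjective _ Ideal.Quotient.mk_surjective).1 hx
    rw [proj_eq_zero, mem_succ_iff ha]
    intro d
    rw [← qlam_proj d ha]
    exact h d

variable {p n}

lemma qSmall_q (k : ℕ) (hk : 1 ≤ k) : (qSmall p n k hk).q = qred p n k := rfl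

lemma isSmall_map {k : ℕ} (hk : 1 ≤ k) {σ : Type*} {E : MvPowerSeries σ (LT p n)}
    (h : ∀ d, coeff d E ∈ maximalIdeal (LT p n) ^ k) :
    (qSmall p n k hk).IsSmall (MvPowerSeries.map (proj p n (k + 1)) E) := fun d => by
  rw [coeff_map]
  exact Ideal.mem_map_of_mem _ (h d)

lemma coeff_lamS_map {k : ℕ} (hk : 1 ≤ k) {σ : Type*} {E : MvPowerSeries σ (LT p n)}
    (h : ∀ d, coeff d E ∈ maximalIdeal (LT p n) ^ k) (i : Dig n k) (d : σ →₀ ℕ) :
    coeff d ((qSmall p n k hk).lamS i (MvPowerSeries.map (proj p n (k + 1)) E)) =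
      lam p n k i (coeff d E) := by
  rw [Small.coeff_lamS, coeff_map]
  exact qlam_proj i (h d)

lemma map_qred_law (k : ℕ) (G : FormalGroup (LT p n)) :
    (G.map (proj p n (k + 1))).map (qred p n k) = G.map (red p n) :=
  FormalGroup.ext (MvPowerSeries.ext fun d => by simp [qred_proj])

lemma map_qred_series (k : ℕ) (f : PowerSeries (LT p n)) :
    PowerSeries.map (qred p n k) (PowerSeries.map (proj p n (k + 1)) f) =
      PowerSeries.map (red p n) f :=
  PowerSeries.ext fun b => by simp [qred_proj]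

/-- The law carried along by an endomorphism. -/
abbrev push (F : FormalGroup (LT p n)) (φ : LT p n →ₐ[WittVector p (Res p n)] LT p n) :
    FormalGroup (LT p n) := F.map φ.toRingHom

lemma red_push (F : FormalGroup (LT p n)) (φ : LT p n →ₐ[WittVector p (Res p n)] LT p n) :
    (push F φ).map (red p n) = special p n F :=
  FormalGroup.ext (MvPowerSeries.ext fun d => by simp [special, red_endo])

lemma coeff_push (F : FormalGroup (LT p n)) (φ : LT p n →ₐ[WittVector p (Res p n)] LT p n)
    (d : Fin 2 →₀ ℕ) : coeff d (push F φ).toPowerSeries = φ (coeff d F.toPowerSeries) := by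
  simp

lemma isComm_map {T U : Type*} [CommRing T] [CommRing U] (φ : T →+* U) (G : FormalGroup T)
    [G.IsComm] : (G.map φ).IsComm := by
  refine ⟨?_⟩
  have h := congrArg (MvPowerSeries.map φ) (FormalGroup.IsComm.comm (F := G))
  rw [map_subst (hasSubst_of_ord (ord_pair (ord_X 1) (ord_X 0)))] at h
  refine h.trans ?_
  congr 1
  funext i
  fin_cases i <;> simp

variable (F : FormalGroup (LT p n))

/-- `f` is a homomorphism from `F` to `φ_* F` modulo `m^k`. -/
def HomMod (k : ℕ) (φ : LT p n →ₐ[WittVector p (Res p n)] LT p n) (f : PowerSeries (LT p n)) :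
    Prop :=
  IsHom (F.map (proj p n k)) ((push F φ).map (proj p n k)) (PowerSeries.map (proj p n k) f)

/-- The defect of `f` over the Lubin-Tate ring. -/
def defect (φ : LT p n →ₐ[WittVector p (Res p n)] LT p n) (f : PowerSeries (LT p n)) :
    MvPowerSeries (Fin 2) (LT p n) :=
  PowerSeries.subst F.toPowerSeries f -
    law2 (push F φ) (PowerSeries.subst (X (0 : Fin 2) : MvPowerSeries (Fin 2) (LT p n)) f)
      (PowerSeries.subst (X (1 : Fin 2) : MvPowerSeries (Fin 2) (LT p n)) f)

lemma map_defect {U : Type} [CommRing U] (π : LT p n →+* U)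
    (φ : LT p n →ₐ[WittVector p (Res p n)] LT p n) {f : PowerSeries (LT p n)}
    (hf : PowerSeries.constantCoeff f = 0) :
    MvPowerSeries.map π (defect F φ f) =
      PowerSeries.subst (F.map π).toPowerSeries (PowerSeries.map π f) -
        law2 ((push F φ).map π)
          (PowerSeries.subst (X (0 : Fin 2) : MvPowerSeries (Fin 2) U) (PowerSeries.map π f))
          (PowerSeries.subst (X (1 : Fin 2) : MvPowerSeries (Fin 2) U) (PowerSeries.map π f)) := by
  rw [defect, map_sub, map_series π f (ord_formalGroup F),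
    map_law2 π _ (ord_series (ord_X 0) hf) (ord_series (ord_X 1) hf), map_series π f (ord_X 0),
    map_series π f (ord_X 1), MvPowerSeries.map_X, MvPowerSeries.map_X]
  rfl

lemma homMod_iff {k : ℕ} {φ : LT p n →ₐ[WittVector p (Res p n)] LT p n}
    {f : PowerSeries (LT p n)} (hf : PowerSeries.constantCoeff f = 0) :
    HomMod F k φ f ↔ ∀ d, coeff d (defect F φ f) ∈ maximalIdeal (LT p n) ^ k := by
  have h := map_defect F (proj p n k) φ hf
  constructor
  · intro hom d
    have := congrArg (coeff d) h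
    rw [hom.2, sub_self, coeff_map, map_zero, proj_eq_zero] at this
    exact this
  · intro hd
    refine ⟨by rw [← PowerSeries.coeff_zero_eq_constantCoeff_apply, PowerSeries.coeff_map,
      PowerSeries.coeff_zero_eq_constantCoeff_apply, hf, map_zero], sub_eq_zero.1 ?_⟩
    rw [← h]
    exact MvPowerSeries.ext fun d => by rw [coeff_map, proj_eq_zero.2 (hd d), map_zero]

lemma homMod_congr {k : ℕ} {φ φ' : LT p n →ₐ[WittVector p (Res p n)] LT p n}
    {f f' : PowerSeries (LT p n)}
    (hφ : ∀ i, φ (X i) - φ' (X i) ∈ maximalIdeal (LT p n) ^ k)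
    (hf : ∀ b, PowerSeries.coeff b f - PowerSeries.coeff b f' ∈ maximalIdeal (LT p n) ^ k)
    (h : HomMod F k φ f) : HomMod F k φ' f' := by
  have e1 : (push F φ).map (proj p n k) = (push F φ').map (proj p n k) :=
    FormalGroup.ext (MvPowerSeries.ext fun d => by
      simpa using proj_eq_iff.2 (endo_congr φ φ' hφ (coeff d F.toPowerSeries)))
  have e2 : PowerSeries.map (proj p n k) f = PowerSeries.map (proj p n k) f' :=
    PowerSeries.ext fun b => by simpa using proj_eq_iff.2 (hf b)
  rw [HomMod, e1, e2] at h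
  exact h

lemma homMod_one {φ : LT p n →ₐ[WittVector p (Res p n)] LT p n} {f : PowerSeries (LT p n)}
    (hf : PowerSeries.constantCoeff f = 0)
    (hg : IsHom (special p n F) (special p n F) (PowerSeries.map (red p n) f)) :
    HomMod F 1 φ f := by
  refine (homMod_iff F hf).2 fun d => ?_
  rw [pow_one, mem_maximal_iff, ← coeff_map, map_defect F (red p n) φ hf, red_push F φ]
  rw [show F.map (red p n) = special p n F from rfl, hg.2, sub_self, map_zero]

lemma homMod_of_isHom {φ : LT p n →ₐ[WittVector p (Res p n)] LT p n}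
    {f : PowerSeries (LT p n)} (h : IsHom F (push F φ) f) (k : ℕ) : HomMod F k φ f :=
  Cont.isHom_map _ h

lemma isHom_of_homMod {φ : LT p n →ₐ[WittVector p (Res p n)] LT p n}
    {f : PowerSeries (LT p n)} (hf : PowerSeries.constantCoeff f = 0)
    (h : ∀ k, HomMod F k φ f) : IsHom F (push F φ) f := by
  refine ⟨hf, sub_eq_zero.1 (MvPowerSeries.ext fun d => ?_)⟩
  refine (eq_of_forall_sub_mem p n fun k => ?_).trans (map_zero _).symm
  rw [sub_zero]
  exact (homMod_iff F hf).1 (h k) d

end Vale.Agent.P217.Action
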