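import Vale.Agent.P217.Action.Coboundary

/-!
P217: calculus with coefficients in a square-zero ideal killed by the kernel of the residue map.
-/

noncomputable section

namespace Vale.Agent.P217.Action

open MvPowerSeries

/-- A square-zero ideal killed by the kernel of the residue map, with coordinates. -/
structure Small (S : Type*) [CommRing S] (κ : Type*) [CommRing κ] (ι : Type*) where
  /-- the residue map -/
  q : S →+* κ
  /-- the ideal -/
  J : Ideal S
  q_eq_zero : ∀ x ∈ J, q x = 0
  mul_eq_zero : ∀ s, ∀ x ∈ J, q s = 0 → s * x = 0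
  /-- the coordinates -/
  lam : ι → S → κ
  lam_add : ∀ i, ∀ x ∈ J, ∀ y ∈ J, lam i (x + y) = lam i x + lam i y
  lam_mul : ∀ i s, ∀ x ∈ J, lam i (s * x) = q s * lam i x
  lam_ext : ∀ x ∈ J, (∀ i, lam i x = 0) → x = 0

variable {S κ : Type*} [CommRing S] [CommRing κ] {ι : Type*} (M : Small S κ ι) {σ τ : Type*}

namespace Small

/-- All coefficients in the ideal. -/
def IsSmall (E : MvPowerSeries σ S) : Prop := ∀ d, coeff d E ∈ M.J

/-- A coordinate of a series. -/
def lamS (i : ι) (E : MvPowerSeries σ S) : MvPowerSeries σ κ := fun d => M.lam i (coeff d E)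

lemma coeff_lamS (i : ι) (E : MvPowerSeries σ S) (d : σ →₀ ℕ) :
    coeff d (M.lamS i E) = M.lam i (coeff d E) := rfl

lemma lam_zero (i : ι) : M.lam i 0 = 0 := by
  simpa using M.lam_mul i 0 0 (zero_mem _)

lemma lam_sum (i : ι) {α : Type*} (s : Finset α) (f : α → S) (hf : ∀ a ∈ s, f a ∈ M.J) :
    M.lam i (∑ a ∈ s, f a) = ∑ a ∈ s, M.lam i (f a) := by
  classical
  induction s using Finset.induction_on with
  | empty => simpa using M.lam_zero i
  | insert a s ha ih =>
    rw [Finset.sum_insert ha, Finset.sum_insert ha,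
      M.lam_add i _ (hf a (Finset.mem_insert_self a s)) _
        (Ideal.sum_mem _ fun b hb => hf b (Finset.mem_insert_of_mem hb)),
      ih fun b hb => hf b (Finset.mem_insert_of_mem hb)]

variable {M}

lemma isSmall_zero : M.IsSmall (0 : MvPowerSeries σ S) := fun _ => by simp

lemma IsSmall.add {E E' : MvPowerSeries σ S} (h : M.IsSmall E) (h' : M.IsSmall E') :
    M.IsSmall (E + E') := fun d => by rw [map_add]; exact add_mem (h d) (h' d)

lemma IsSmall.sub {E E' : MvPowerSeries σ S} (h : M.IsSmall E) (h' : M.IsSmall E') :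
    M.IsSmall (E - E') := fun d => by rw [map_sub]; exact sub_mem (h d) (h' d)

lemma lamS_add (i : ι) {E E' : MvPowerSeries σ S} (h : M.IsSmall E) (h' : M.IsSmall E') :
    M.lamS i (E + E') = M.lamS i E + M.lamS i E' := MvPowerSeries.ext fun d => by
  simp only [coeff_lamS, map_add]
  exact M.lam_add i _ (h d) _ (h' d)

lemma lamS_zero (i : ι) : M.lamS i (0 : MvPowerSeries σ S) = 0 := MvPowerSeries.ext fun d => by
  simp [coeff_lamS, M.lam_zero]

lemma lamS_sub (i : ι) {E E' : MvPowerSeries σ S} (h : M.IsSmall E) (h' : M.IsSmall E') :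
    M.lamS i (E - E') = M.lamS i E - M.lamS i E' := by
  rw [eq_sub_iff_add_eq, ← lamS_add i (h.sub h') h', sub_add_cancel]

lemma eq_of_lamS {E E' : MvPowerSeries σ S} (h : M.IsSmall E) (h' : M.IsSmall E')
    (he : ∀ i, M.lamS i E = M.lamS i E') : E = E' := by
  refine sub_eq_zero.1 (MvPowerSeries.ext fun d => ?_)
  rw [map_zero]
  refine M.lam_ext _ ((h.sub h') d) fun i => ?_
  rw [← coeff_lamS, lamS_sub i h h', he i, sub_self, map_zero]

lemma IsSmall.mul_left {E : MvPowerSeries σ S} (h : M.IsSmall E) (A : MvPowerSeries σ S) :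
    M.IsSmall (A * E) := fun d => by
  classical
  rw [coeff_mul]
  exact Ideal.sum_mem _ fun x _ => Ideal.mul_mem_left _ _ (h _)

lemma IsSmall.mul_right {E : MvPowerSeries σ S} (h : M.IsSmall E) (A : MvPowerSeries σ S) :
    M.IsSmall (E * A) := mul_comm A E ▸ h.mul_left A

lemma lamS_mul (i : ι) {E : MvPowerSeries σ S} (h : M.IsSmall E) (A : MvPowerSeries σ S) :
    M.lamS i (A * E) = MvPowerSeries.map M.q A * M.lamS i E := MvPowerSeries.ext fun d => by
  classical
  rw [coeff_lamS, coeff_mul, coeff_mul,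
    lam_sum M i _ _ fun x _ => Ideal.mul_mem_left _ _ (h _)]
  refine Finset.sum_congr rfl fun x _ => ?_
  rw [M.lam_mul i _ _ (h _), coeff_map, coeff_lamS]

lemma IsSmall.mul_eq_zero {E : MvPowerSeries σ S} (h : M.IsSmall E) {A : MvPowerSeries σ S}
    (hA : MvPowerSeries.map M.q A = 0) : A * E = 0 := MvPowerSeries.ext fun d => by
  classical
  rw [coeff_mul, map_zero]
  refine Finset.sum_eq_zero fun x _ => M.mul_eq_zero _ _ (h _) ?_
  rw [← coeff_map, hA, map_zero]

lemma IsSmall.mul_congr {E : MvPowerSeries σ S} (h : M.IsSmall E) {A B : MvPowerSeries σ S}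
    (hAB : MvPowerSeries.map M.q A = MvPowerSeries.map M.q B) : A * E = B * E := by
  rw [← sub_eq_zero, ← sub_mul]
  exact h.mul_eq_zero (by rw [map_sub, hAB, sub_self])

lemma IsSmall.map_q {E : MvPowerSeries σ S} (h : M.IsSmall E) : MvPowerSeries.map M.q E = 0 :=
  MvPowerSeries.ext fun d => by rw [coeff_map, M.q_eq_zero _ (h d), map_zero]

lemma IsSmall.subst {E : MvPowerSeries σ S} (h : M.IsSmall E) {a : σ → MvPowerSeries τ S}
    (ha : HasSubst a) : M.IsSmall (MvPowerSeries.subst a E) := fun d => by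
  classical
  rw [coeff_subst ha, finsum_eq_sum _ (coeff_subst_finite ha E d)]
  exact Ideal.sum_mem _ fun e _ => Ideal.mul_mem_right _ _ (h _)

lemma lamS_subst [Finite σ] (i : ι) {E : MvPowerSeries σ S} (h : M.IsSmall E)
    {a : σ → MvPowerSeries τ S} (ha : ∀ s, Ord 1 (a s)) :
    M.lamS i (MvPowerSeries.subst a E) =
      MvPowerSeries.subst (fun s => MvPowerSeries.map M.q (a s)) (M.lamS i E) := by
  classical
  have hq : ∀ s, Ord 1 (MvPowerSeries.map M.q (a s)) := fun s => ord_one_iff.2 (by
    rw [constantCoeff_map, ord_one_iff.1 (ha s), map_zero])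
  refine MvPowerSeries.ext fun d => ?_
  rw [coeff_lamS, coeff_subst (hasSubst_of_ord ha), coeff_subst (hasSubst_of_ord hq)]
  have hfin := coeff_subst_finite (hasSubst_of_ord ha) E d
  rw [finsum_eq_sum _ hfin, lam_sum M i _ (fun e => coeff e E • coeff d (e.prod fun s k => a s ^ k))
    fun e _ => Ideal.mul_mem_right _ _ (h _)]
  have hterm : ∀ e, coeff e (M.lamS i E) • coeff d (e.prod fun s k => MvPowerSeries.map M.q (a s) ^ k)
      = M.lam i (coeff e E • coeff d (e.prod fun s k => a s ^ k)) := by
    intro e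
    rw [smul_eq_mul, smul_eq_mul, mul_comm (coeff e E), M.lam_mul i _ _ (h e), coeff_lamS,
      mul_comm]
    congr 1
    rw [← coeff_map, Finsupp.prod, Finsupp.prod, map_prod (MvPowerSeries.map M.q)]
    congr 1
    exact Finset.prod_congr rfl fun s _ => (map_pow _ _ _).symm
  rw [finsum_congr hterm, finsum_eq_sum_of_support_subset]
  intro e he
  simp only [Function.mem_support] at he
  refine Finset.mem_coe.2 ((Set.Finite.mem_toFinset hfin).2 ?_)
  intro h0
  simp only at h0
  exact he (by rw [h0, M.lam_zero])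

/-- The derivative of a law in its second variable on the first axis. -/
def omega {T : Type*} [CommRing T] (G : FormalGroup T) : PowerSeries T :=
  PowerSeries.mk fun a => coeff (e2 a 1) G.toPowerSeries

lemma coeff_subst_X0 {T : Type*} [CommRing T] (f : PowerSeries T) (d : Fin 2 →₀ ℕ) :
    coeff d (PowerSeries.subst (X 0 : MvPowerSeries (Fin 2) T) f) =
      if d 1 = 0 then PowerSeries.coeff (d 0) f else 0 := by
  classical
  have hX : ∀ m, coeff d ((X 0 : MvPowerSeries (Fin 2) T) ^ m) =
      if d 0 = m ∧ d 1 = 0 then 1 else 0 := by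
    intro m
    rw [X_pow_eq, coeff_monomial]
    refine if_congr ⟨fun h => by simp [h], fun h => ?_⟩ rfl rfl
    rw [← e2_eta d, h.1, h.2, e2, Finsupp.single_zero, add_zero]
  rw [coeff_subst_range (ord_X 0)]
  simp only [hX, mul_ite, mul_one, mul_zero]
  by_cases h : d 1 = 0
  · simp only [h, and_true]
    rw [Finset.sum_ite_eq, if_pos (Finset.mem_range.2 (Nat.lt_succ_of_le (Finsupp.le_degree 0 d))),
      if_pos trivial]
  · simp [h]

lemma exists_expansion {T : Type*} [CommRing T] (G : FormalGroup T) :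
    ∃ H, G.toPowerSeries = X 0 + X 1 * PowerSeries.subst (X 0 : MvPowerSeries (Fin 2) T) (omega G) +
      X 1 ^ 2 * H := by
  classical
  have hd : (X 1 : MvPowerSeries (Fin 2) T) ^ 2 ∣ G.toPowerSeries -
      (X 0 + X 1 * PowerSeries.subst (X 0 : MvPowerSeries (Fin 2) T) (omega G)) := by
    rw [X_pow_dvd_iff]
    intro d hd
    have hX1 : (X 1 : MvPowerSeries (Fin 2) T) = monomial (Finsupp.single 1 1) 1 := X_def 1
    rw [map_sub, map_add, hX1, coeff_monomial_mul, one_mul, ← e2_eta d]
    rcases (show d 1 = 0 ∨ d 1 = 1 by omega) with h1 | h1 <;> rw [h1]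
    · have hax : coeff (e2 (d 0) 0) G.toPowerSeries =
          coeff (e2 (d 0) 0) (X 0 : MvPowerSeries (Fin 2) T) := by
        rw [← coeff_axis, G.add_zero (hasSubst_one (ord_X 0))]
      rw [hax, if_neg, add_zero, sub_self]
      intro hle
      have := hle (1 : Fin 2)
      simp [e2] at this
    · have hk : e2 (d 0) 1 - Finsupp.single 1 1 = e2 (d 0) 0 := by
        ext i; fin_cases i <;> simp [e2]
      rw [if_pos, hk, coeff_subst_X0, if_pos, coeff_X, if_neg, zero_add]
      · simp [omega, e2]
      · intro he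
        have := DFunLike.congr_fun he (1 : Fin 2)
        simp [e2] at this
      · simp [e2]
      · intro i
        fin_cases i <;> simp [e2]
  obtain ⟨H, hH⟩ := hd
  exact ⟨H, by rw [← hH]; ring⟩

lemma constantCoeff_omega_subst {T : Type*} [CommRing T] (G : FormalGroup T)
    {A : MvPowerSeries τ T} (hA : Ord 1 A) :
    constantCoeff (PowerSeries.subst A (omega G)) = 1 := by
  classical
  rw [← coeff_zero_eq_constantCoeff_apply, coeff_subst_range hA]
  simp [omega, e2, G.lin_coeff_Y]

variable (G : FormalGroup S)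

/-- Adding a small series. -/
lemma add_small {A E : MvPowerSeries τ S} (hA : Ord 1 A) (hE : M.IsSmall E) (hE1 : Ord 1 E) :
    MvPowerSeries.subst ![A, E] G.toPowerSeries = A + E * PowerSeries.subst A (omega G) := by
  obtain ⟨H, hH⟩ := exists_expansion G
  have hs := hasSubst_of_ord (ord_pair hA hE1)
  have hE2 : E * E = 0 := hE.mul_eq_zero hE.map_q
  rw [hH, subst_add hs, subst_add hs, subst_mul hs, subst_mul hs, subst_pow hs, subst_X hs,
    subst_X hs, subst_series (ord_pair hA hE1) (ord_X 0), subst_X hs]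
  simp [pow_two, hE2]

/-- Two small series add. -/
lemma small_add_small {E E' : MvPowerSeries τ S} (hE : M.IsSmall E) (hE' : M.IsSmall E')
    (h1 : Ord 1 E) (h1' : Ord 1 E') :
    MvPowerSeries.subst ![E, E'] G.toPowerSeries = E + E' := by
  rw [add_small G h1 hE' h1', mul_comm E', hE'.mul_congr (B := 1), one_mul]
  classical
  refine MvPowerSeries.ext fun d => ?_
  rw [map_one, coeff_map, coeff_subst_range h1, map_sum,
    Finset.sum_eq_single 0]
  · simp [omega, e2, G.lin_coeff_Y, coeff_one]
  · intro m _ hm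
    rw [map_mul, ← coeff_map, map_pow, hE.map_q, zero_pow hm, map_zero, mul_zero]
  · simp

lemma cancel_small {A E E' : MvPowerSeries τ S} (hA : Ord 1 A) (hE : M.IsSmall E)
    (hE' : M.IsSmall E') (h1 : Ord 1 E) (h1' : Ord 1 E')
    (h : MvPowerSeries.subst ![A, E] G.toPowerSeries =
      MvPowerSeries.subst ![A, E'] G.toPowerSeries) : E = E' := by
  rw [add_small G hA hE h1, add_small G hA hE' h1', add_right_inj] at h
  refine IsUnit.mul_right_cancel ?_ h
  rw [MvPowerSeries.isUnit_iff_constantCoeff, constantCoeff_omega_subst G hA]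
  exact isUnit_one

lemma add_small_congr {G' : FormalGroup S} (hGG : G'.map M.q = G.map M.q) {A E : MvPowerSeries τ S}
    (hA : Ord 1 A) (hE : M.IsSmall E) (hE1 : Ord 1 E) :
    MvPowerSeries.subst ![A, E] G'.toPowerSeries = MvPowerSeries.subst ![A, E] G.toPowerSeries := by
  rw [add_small G' hA hE hE1, add_small G hA hE hE1, mul_comm E, mul_comm E]
  congr 1
  refine hE.mul_congr (MvPowerSeries.ext fun d => ?_)
  rw [coeff_map, coeff_map, coeff_subst_range hA, coeff_subst_range hA, map_sum, map_sum]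
  refine Finset.sum_congr rfl fun m _ => ?_
  have := congrArg (fun Φ : FormalGroup κ => coeff (e2 m 1) Φ.toPowerSeries) hGG
  simp only [FormalGroup.map_toPowerSeries, coeff_map] at this
  rw [map_mul, map_mul, omega, omega, PowerSeries.coeff_mk, PowerSeries.coeff_mk, this]

end Small

end Vale.Agent.P217.Action
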