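import Vale.Agent.P217.Action.Quot

/-!
P217: lifting an automorphism of the special fibre through one power of the maximal ideal.
-/

noncomputable section

namespace Vale.Agent.P217.Action

open MvPowerSeries IsLocalRing

variable {p n : ℕ} [Fact p.Prime] {F : FormalGroup (LT p n)}

lemma lamS_series {S κ : Type*} [CommRing S] [CommRing κ] {ι τ : Type*} {M : Small S κ ι} (i : ι)
    {ε : PowerSeries S} (hε : M.IsSmall (ε : MvPowerSeries Unit S)) {u : MvPowerSeries τ S}
    (hu : Ord 1 u) :
    M.lamS i (PowerSeries.subst u ε) =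
      PowerSeries.subst (MvPowerSeries.map M.q u) (M.lamS i ε : PowerSeries κ) :=
  Small.lamS_subst i hε fun _ => hu

lemma coeff_lamS_series {k : ℕ} (hk : 1 ≤ k) {ε : PowerSeries (LT p n)}
    (h : ∀ b, PowerSeries.coeff b ε ∈ maximalIdeal (LT p n) ^ k) (d : Dig n k) (b : ℕ) :
    PowerSeries.coeff b ((qSmall p n k hk).lamS d (PowerSeries.map (proj p n (k + 1)) ε) :
      PowerSeries (Res p n)) = lam p n k d (PowerSeries.coeff b ε) := by
  refine (congrArg (qlam k d) (PowerSeries.coeff_map (proj p n (k + 1)) b ε)).trans ?_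
  exact qlam_proj d (h b)

lemma isSmall_series {k : ℕ} (hk : 1 ≤ k) {ε : PowerSeries (LT p n)}
    (h : ∀ b, PowerSeries.coeff b ε ∈ maximalIdeal (LT p n) ^ k) :
    (qSmall p n k hk).IsSmall
      (PowerSeries.map (proj p n (k + 1)) ε : MvPowerSeries Unit _) := by
  refine isSmall_map hk fun d => ?_
  rw [show d = Finsupp.single () (d ()) from Finsupp.unique_single d]
  exact h (d ())

lemma map_adjust {U : Type} [CommRing U] (π : LT p n →+* U) (G : FormalGroup (LT p n))
    {f ε : PowerSeries (LT p n)} (hf : PowerSeries.constantCoeff f = 0)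
    (hε : PowerSeries.constantCoeff ε = 0) :
    PowerSeries.map π (MvPowerSeries.subst ![f, ε] G.toPowerSeries : PowerSeries (LT p n)) =
      (MvPowerSeries.subst ![PowerSeries.map π f, PowerSeries.map π ε] (G.map π).toPowerSeries :
        PowerSeries U) :=
  map_law2 π G (ord_one_iff.2 hf) (ord_one_iff.2 hε)

lemma map_adjust_zero {U : Type} [CommRing U] (π : LT p n →+* U) (G : FormalGroup (LT p n))
    {f ε : PowerSeries (LT p n)} (hf : PowerSeries.constantCoeff f = 0)
    (hε : PowerSeries.constantCoeff ε = 0) (h : ∀ b, π (PowerSeries.coeff b ε) = 0) :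
    PowerSeries.map π (MvPowerSeries.subst ![f, ε] G.toPowerSeries : PowerSeries (LT p n)) =
      PowerSeries.map π f := by
  rw [map_adjust π G hf hε, show PowerSeries.map π ε = 0 from
    PowerSeries.ext fun b => by rw [PowerSeries.coeff_map, h b, map_zero]]
  exact (G.map π).add_zero (hasSubst_one (map_ord π (ord_one_iff.2 hf)))

variable {k : ℕ} (hk : 1 ≤ k)

/-- A change of parameters in `m^k` perturbs the law by its classes. -/
lemma exists_psi (φ φ' : LT p n →ₐ[WittVector p (Res p n)] LT p n)
    (h : ∀ i, φ' (X i) - φ (X i) ∈ maximalIdeal (LT p n) ^ k) :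
    ∃ Ψ, IsDefect (qSmall p n k hk) ((push F φ').map (proj p n (k + 1)))
        ((push F φ).map (proj p n (k + 1))) PowerSeries.X Ψ ∧
      ∀ d, (qSmall p n k hk).lamS d Ψ = ∑ i, lam p n k d (φ' (X i) - φ (X i)) • cls F i := by
  set π := proj p n (k + 1) with hπ
  set M := qSmall p n k hk with hM
  set G := (push F φ).map π with hG
  set G' := (push F φ').map π with hG'
  set D := (push F φ').toPowerSeries - (push F φ).toPowerSeries with hD
  have hDm : ∀ e, coeff e D ∈ maximalIdeal (LT p n) ^ k := fun e => by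
    rw [hD, map_sub, coeff_push, coeff_push]
    exact endo_congr φ' φ h _
  have hDπ : MvPowerSeries.map π D = G'.toPowerSeries - G.toPowerSeries := by
    rw [hD, map_sub]
    rfl
  have hl : PowerSeries.subst G'.toPowerSeries
      (PowerSeries.X : PowerSeries (LT p n ⧸ maximalIdeal (LT p n) ^ (k + 1))) =
        G'.toPowerSeries :=
    PowerSeries.subst_X (hasSubst_one (ord_formalGroup G'))
  have hr : law2 G (PowerSeries.subst (X (0 : Fin 2) : MvPowerSeries (Fin 2) _)
      (PowerSeries.X : PowerSeries (LT p n ⧸ maximalIdeal (LT p n) ^ (k + 1))))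
      (PowerSeries.subst (X (1 : Fin 2) : MvPowerSeries (Fin 2) _)
      (PowerSeries.X : PowerSeries (LT p n ⧸ maximalIdeal (LT p n) ^ (k + 1)))) =
        G.toPowerSeries := by
    rw [PowerSeries.subst_X (hasSubst_one (ord_X 0)), PowerSeries.subst_X (hasSubst_one (ord_X 1))]
    have hid : (![X 0, X 1] : Fin 2 → MvPowerSeries (Fin 2)
        (LT p n ⧸ maximalIdeal (LT p n) ^ (k + 1))) = MvPowerSeries.X := by
      funext j; fin_cases j <;> rfl
    rw [law2, hid, subst_self, id]
  obtain ⟨Ψ, hΨ⟩ := exists_defect (M := M) G' G PowerSeries.constantCoeff_X (by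
    rw [hl, hr, ← hDπ]
    exact isSmall_map hk hDm)
  refine ⟨Ψ, hΨ, fun d => ?_⟩
  have h1 := hΨ.eq
  rw [hl, hr, law2, Small.add_small G (ord_formalGroup G) hΨ.small hΨ.ord] at h1
  have h2 : MvPowerSeries.map π D = PowerSeries.subst G.toPowerSeries (Small.omega G) * Ψ := by
    rw [hDπ, h1]
    ring
  have h3 := congrArg (M.lamS d) h2
  have hw : MvPowerSeries.map M.q (PowerSeries.subst G.toPowerSeries (Small.omega G)) = wFib F := by
    rw [map_series M.q _ (ord_formalGroup G), omega_map]
    have : G.map M.q = special p n F := (map_qred_law k (push F φ)).trans (red_push F φ)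
    rw [← FormalGroup.map_toPowerSeries, this]
    rfl
  have h4 : M.lamS d (MvPowerSeries.map π D) =
      ∑ i, lam p n k d (φ' (X i) - φ (X i)) • Lin F i := by
    refine MvPowerSeries.ext fun e => ?_
    rw [coeff_lamS_map hk hDm, hD, map_sub, coeff_push, coeff_push, map_sum]
    have hl := linearisation p n φ' φ hk h (coeff e F.toPowerSeries)
    have hs : ∀ i, lift p n (linCoeff p n i (coeff e F.toPowerSeries)) *
        (φ' (X i) - φ (X i)) ∈ maximalIdeal (LT p n) ^ k :=
      fun i => Ideal.mul_mem_left _ _ (h i)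
    have h5 := lam_eq_zero_of_mem d hl
    rw [lam_sub d (endo_congr φ' φ h _) (Ideal.sum_mem _ fun i _ => hs i),
      lam_sum d _ _ fun i _ => hs i, sub_eq_zero] at h5
    rw [h5]
    refine Finset.sum_congr rfl fun i _ => ?_
    rw [lam_mul d _ (h i), red_lift, coeff_smul, coeff_Lin, mul_comm]
  rw [h4, Small.lamS_mul d hΨ.small, hw] at h3
  refine (isUnit_wFib F).mul_left_cancel ?_
  rw [← h3, Finset.mul_sum]
  refine Finset.sum_congr rfl fun i _ => ?_
  rw [mul_smul_comm, mul_comm (wFib F), cls_mul]

variable (hF : LawFacts p n F)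

include hF in
/-- The classes are cocycles. -/
lemma isCocycle_cls (i : Fin (n - 1)) : IsCocycle (special p n F) (cls F i) := by
  classical
  have := isComm hF
  obtain ⟨d₀, -⟩ := exists_dig (n := n) (k := 1) (t := 0) (by simp)
  obtain ⟨δ, hδ, hδl⟩ := exists_digits (p := p) (n := n) 1 fun d => if d = d₀ then 1 else 0
  have ha : ∀ j, (X j : LT p n) + (if j = i then δ else 0) ∈ maximalIdeal (LT p n) := fun j => by
    refine add_mem (X_mem_maximalIdeal j) ?_
    split_ifs
    · simpa using hδ
    · exact zero_mem _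
  have hdiff : ∀ j, endo p n _ ha (X j) - AlgHom.id (WittVector p (Res p n)) (LT p n) (X j) =
      if j = i then δ else 0 := fun j => by
    rw [endo_X, AlgHom.id_apply, add_sub_cancel_left]
  obtain ⟨Ψ, hΨ, hlam⟩ := exists_psi (F := F) le_rfl (AlgHom.id _ (LT p n)) (endo p n _ ha)
    fun j => by
      rw [hdiff]
      split_ifs
      · exact hδ
      · exact zero_mem _
  have : (push F (endo p n _ ha)).IsComm := isComm_map _ _
  have : ((push F (endo p n _ ha)).map (proj p n (1 + 1))).IsComm := isComm_map _ _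
  have : (push F (AlgHom.id (WittVector p (Res p n)) (LT p n))).IsComm := isComm_map _ _
  have : ((push F (AlgHom.id (WittVector p (Res p n)) (LT p n))).map (proj p n (1 + 1))).IsComm :=
    isComm_map _ _
  have hc := hΨ.isCocycle PowerSeries.constantCoeff_X
    (Fb := special p n F) ((map_qred_law 1 _).trans (red_push F _)) d₀
  rw [hlam d₀, Finset.sum_eq_single i] at hc
  · rwa [hdiff, if_pos rfl, hδl, if_pos rfl, one_smul] at hc
  · intro j _ hj
    rw [hdiff, if_neg hj, lam_zero, zero_smul]
  · simp

include hF in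
/-- The equation for a correction, in coordinates. -/
lemma correct_iff {g : PowerSeries (Res p n)} {φ φ' : LT p n →ₐ[WittVector p (Res p n)] LT p n}
    (h : ∀ i, φ' (X i) - φ (X i) ∈ maximalIdeal (LT p n) ^ k) {f : PowerSeries (LT p n)}
    (hf : PowerSeries.constantCoeff f = 0) (hg : PowerSeries.map (red p n) f = g)
    {E : MvPowerSeries (Fin 2) (LT p n ⧸ maximalIdeal (LT p n) ^ (k + 1))}
    (hE : IsDefect (qSmall p n k hk) (F.map (proj p n (k + 1)))
      ((push F φ).map (proj p n (k + 1))) (PowerSeries.map (proj p n (k + 1)) f) E)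
    {ε : PowerSeries (LT p n ⧸ maximalIdeal (LT p n) ^ (k + 1))}
    (hε : (qSmall p n k hk).IsSmall (ε : MvPowerSeries Unit _))
    (hε0 : PowerSeries.constantCoeff ε = 0) :
    IsHom (F.map (proj p n (k + 1))) ((push F φ').map (proj p n (k + 1)))
        (MvPowerSeries.subst ![PowerSeries.map (proj p n (k + 1)) f, ε]
          ((push F φ).map (proj p n (k + 1))).toPowerSeries :
            PowerSeries (LT p n ⧸ maximalIdeal (LT p n) ^ (k + 1))) ↔
      ∀ d, (qSmall p n k hk).lamS d E +
          cobd (special p n F) ((qSmall p n k hk).lamS d ε : PowerSeries (Res p n)) =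
        ∑ i, lam p n k d (φ' (X i) - φ (X i)) • pullback g (cls F i) := by
  have := isComm hF
  have : (push F φ').IsComm := isComm_map _ _
  have : ((push F φ').map (proj p n (k + 1))).IsComm := isComm_map _ _
  obtain ⟨Ψ, hΨ, hlam⟩ := exists_psi (F := F) hk φ φ' h
  set π := proj p n (k + 1) with hπ
  set M := qSmall p n k hk with hM
  set fs := PowerSeries.map π f with hfs
  have hfs0 : PowerSeries.constantCoeff fs = 0 := by
    rw [← PowerSeries.coeff_zero_eq_constantCoeff_apply, hfs, PowerSeries.coeff_map,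
      PowerSeries.coeff_zero_eq_constantCoeff_apply, hf, map_zero]
  have hg0 : PowerSeries.constantCoeff g = 0 := by
    rw [← hg, ← PowerSeries.coeff_zero_eq_constantCoeff_apply, PowerSeries.coeff_map,
      PowerSeries.coeff_zero_eq_constantCoeff_apply, hf, map_zero]
  have hGG : ((push F φ').map π).map M.q = ((push F φ).map π).map M.q :=
    ((map_qred_law k _).trans (red_push F φ')).trans
      ((map_qred_law k _).trans (red_push F φ)).symm
  have hfU : Ord 1 (fs : MvPowerSeries Unit _) := ord_one_iff.2 hfs0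
  have hεU : Ord 1 (ε : MvPowerSeries Unit _) := ord_one_iff.2 hε0
  have h0 : PowerSeries.constantCoeff (MvPowerSeries.subst ![fs, ε]
      ((push F φ).map π).toPowerSeries : PowerSeries _) = 0 :=
    ord_one_iff.1 (ord_law2 _ hfU hεU)
  rw [IsHom, and_iff_right h0]
  refine (hom_correct_iff hE hΨ hfs0 hGG hε hε0).trans ?_
  have hu : ∀ j : Fin 2, MvPowerSeries.map M.q
      (X j : MvPowerSeries (Fin 2) (LT p n ⧸ maximalIdeal (LT p n) ^ (k + 1))) = X j :=
    fun j => MvPowerSeries.map_X _ j
  have sF : M.IsSmall (PowerSeries.subst (F.map π).toPowerSeries ε) :=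
    hε.subst (hasSubst_one (ord_formalGroup _)).const
  have sX : ∀ j : Fin 2, M.IsSmall (PowerSeries.subst
      (X j : MvPowerSeries (Fin 2) (LT p n ⧸ maximalIdeal (LT p n) ^ (k + 1))) ε) :=
    fun j => hε.subst (hasSubst_one (ord_X j)).const
  have oP := ord_pair (ord_series (ord_X (0 : Fin 2)) hfs0) (ord_series (ord_X (1 : Fin 2)) hfs0)
  have sP := hΨ.small.subst (hasSubst_of_ord oP)
  have key : ∀ d, M.lamS d (MvPowerSeries.subst ![
      PowerSeries.subst (X (0 : Fin 2) : MvPowerSeries (Fin 2) _) fs,
      PowerSeries.subst (X (1 : Fin 2) : MvPowerSeries (Fin 2) _) fs] Ψ) =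
      ∑ i, lam p n k d (φ' (X i) - φ (X i)) • pullback g (cls F i) := by
    intro d
    have hmapX : ∀ j : Fin 2, MvPowerSeries.map M.q (PowerSeries.subst
        (X j : MvPowerSeries (Fin 2) (LT p n ⧸ maximalIdeal (LT p n) ^ (k + 1))) fs) =
        PowerSeries.subst (X j : MvPowerSeries (Fin 2) (Res p n)) g := fun j => by
      rw [map_series M.q fs (ord_X j), hu j,
        show PowerSeries.map M.q fs = g from (map_qred_series k f).trans hg]
    rw [Small.lamS_subst d hΨ.small oP, hlam d, ← pullback_sum_smul hg0, pullback]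
    congr 1
    funext s
    fin_cases s <;> exact hmapX _
  have hFb : MvPowerSeries.map M.q (F.map π).toPowerSeries = (special p n F).toPowerSeries :=
    congrArg FormalGroup.toPowerSeries (map_qred_law k F)
  constructor
  · intro he d
    have := congrArg (M.lamS d) he
    rw [Small.lamS_add d hE.small sF, Small.lamS_add d sP ((sX 0).add (sX 1)),
      Small.lamS_add d (sX 0) (sX 1), key, lamS_series d hε (ord_formalGroup _),
      lamS_series d hε (ord_X 0), lamS_series d hε (ord_X 1), hu, hu, hFb] at this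
    rw [cobd]
    linear_combination this
  · intro he
    refine Small.eq_of_lamS (hE.small.add sF) (sP.add ((sX 0).add (sX 1))) fun d => ?_
    rw [Small.lamS_add d hE.small sF, Small.lamS_add d sP ((sX 0).add (sX 1)),
      Small.lamS_add d (sX 0) (sX 1), key, lamS_series d hε (ord_formalGroup _),
      lamS_series d hε (ord_X 0), lamS_series d hε (ord_X 1), hu, hu, hFb]
    have := he d
    rw [cobd] at this
    linear_combination this

variable (hn : 1 ≤ n) {g : PowerSeries (Res p n)} (hg : IsStabilizer p n F g)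

include hk hF hn hg in
/-- One step of the lifting. -/
theorem exists_step {φ : LT p n →ₐ[WittVector p (Res p n)] LT p n} {f : PowerSeries (LT p n)}
    (hf : PowerSeries.constantCoeff f = 0) (hfg : PowerSeries.map (red p n) f = g)
    (H : HomMod F k φ f) :
    ∃ φ' f', PowerSeries.constantCoeff f' = 0 ∧ PowerSeries.map (red p n) f' = g ∧
      HomMod F (k + 1) φ' f' ∧ (∀ i, φ' (X i) - φ (X i) ∈ maximalIdeal (LT p n) ^ k) ∧
      ∀ b, PowerSeries.coeff b f' - PowerSeries.coeff b f ∈ maximalIdeal (LT p n) ^ k := by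
  classical
  have := isComm hF
  have : (push F φ).IsComm := isComm_map _ _
  have : (special p n F).IsComm := isComm_map _ _
  have : (F.map (proj p n (k + 1))).IsComm := isComm_map _ _
  have : ((push F φ).map (proj p n (k + 1))).IsComm := isComm_map _ _
  have hg0 : PowerSeries.constantCoeff g = 0 := hg.1.1
  have hfs0 : PowerSeries.constantCoeff (PowerSeries.map (proj p n (k + 1)) f) = 0 := by
    rw [← PowerSeries.coeff_zero_eq_constantCoeff_apply, PowerSeries.coeff_map,
      PowerSeries.coeff_zero_eq_constantCoeff_apply, hf, map_zero]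
  obtain ⟨E, hE⟩ := exists_defect (M := qSmall p n k hk) (F.map (proj p n (k + 1)))
    ((push F φ).map (proj p n (k + 1))) hfs0 (by
      rw [← map_defect F (proj p n (k + 1)) φ hf]
      exact isSmall_map hk ((homMod_iff F hf).1 H))
  have hZ : ∀ d, IsCocycle (special p n F) ((qSmall p n k hk).lamS d E) := fun d =>
    hE.isCocycle hfs0 (map_qred_law k F) d
  have hsol := fun d => solve (special p n F) (special_low_ord hF) (special_lead hF hn)
    (fun i => ord_pullback hg0 (ord_cls hF i)) (fun i => pullback_cls_lead hF hg0 hg.2 i)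
    (fun i => (isCocycle_cls hF i).pullback hg0 hg.1.2) hn (hZ d)
  choose v e he0 heq using hsol
  choose δ hδm hδl using fun i : Fin (n - 1) =>
    exists_digits (p := p) (n := n) k fun d => v d i
  choose c hcm hcl using fun b : ℕ =>
    exists_digits (p := p) (n := n) k fun d => PowerSeries.coeff b (e d)
  let ε₀ : PowerSeries (LT p n) := PowerSeries.mk fun b => if b = 0 then 0 else c b
  have hε₀m : ∀ b, PowerSeries.coeff b ε₀ ∈ maximalIdeal (LT p n) ^ k := fun b => by
    simp only [ε₀, PowerSeries.coeff_mk]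
    split_ifs
    · exact zero_mem _
    · exact hcm b
  have hε₀0 : PowerSeries.constantCoeff ε₀ = 0 := by simp [ε₀]
  have ha : ∀ i, φ (X i) + δ i ∈ maximalIdeal (LT p n) := fun i =>
    add_mem (endo_mem_maximalIdeal φ (X_mem_maximalIdeal i))
      (Ideal.pow_le_self (by omega) (hδm i))
  have hdiff : ∀ i, endo p n _ ha (X i) - φ (X i) = δ i := fun i => by
    rw [endo_X, add_sub_cancel_left]
  let f' : PowerSeries (LT p n) := MvPowerSeries.subst ![f, ε₀] (push F φ).toPowerSeries
  have hf'0 : PowerSeries.constantCoeff f' = 0 :=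
    ord_one_iff.1 (ord_law2 _ (ord_one_iff.2 hf) (ord_one_iff.2 hε₀0))
  refine ⟨endo p n _ ha, f', hf'0, ?_, ?_, fun i => by rw [hdiff]; exact hδm i, fun b => ?_⟩
  · rw [map_adjust_zero (red p n) _ hf hε₀0 fun b => red_eq_zero_of_mem hk (hε₀m b), hfg]
  · rw [HomMod, map_adjust _ _ hf hε₀0]
    refine (correct_iff hk hF (fun i => by rw [hdiff]; exact hδm i) hf hfg hE
      (isSmall_series hk hε₀m) ?_).2 fun d => ?_
    · rw [← PowerSeries.coeff_zero_eq_constantCoeff_apply, PowerSeries.coeff_map,
        PowerSeries.coeff_zero_eq_constantCoeff_apply, hε₀0, map_zero]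
    · have hed : ((qSmall p n k hk).lamS d (PowerSeries.map (proj p n (k + 1)) ε₀) :
          PowerSeries (Res p n)) = e d := PowerSeries.ext fun b => by
        rw [coeff_lamS_series hk hε₀m]
        simp only [ε₀, PowerSeries.coeff_mk]
        split_ifs with hb
        · subst hb
          rw [lam_zero, PowerSeries.coeff_zero_eq_constantCoeff_apply, he0 d]
        · exact hcl b d
      rw [hed, heq d]
      simp only [hdiff, hδl]
  · rw [← proj_eq_iff, ← PowerSeries.coeff_map, ← PowerSeries.coeff_map,
      map_adjust_zero (proj p n k) _ hf hε₀0 fun b => proj_eq_zero.2 (hε₀m b)]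

include hk hF hn hg in
/-- One step of the uniqueness. -/
theorem unique_step {φ φ' : LT p n →ₐ[WittVector p (Res p n)] LT p n}
    {f f' : PowerSeries (LT p n)} (hf : PowerSeries.constantCoeff f = 0)
    (hfg : PowerSeries.map (red p n) f = g)
    (H : HomMod F (k + 1) φ f) (H' : HomMod F (k + 1) φ' f')
    (hφ : ∀ i, φ' (X i) - φ (X i) ∈ maximalIdeal (LT p n) ^ k)
    (hff : ∀ b, PowerSeries.coeff b f' - PowerSeries.coeff b f ∈ maximalIdeal (LT p n) ^ k) :
    (∀ i, φ' (X i) - φ (X i) ∈ maximalIdeal (LT p n) ^ (k + 1)) ∧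
      ∀ b, PowerSeries.coeff b f' - PowerSeries.coeff b f ∈ maximalIdeal (LT p n) ^ (k + 1) := by
  classical
  have hg0 : PowerSeries.constantCoeff g = 0 := hg.1.1
  set π := proj p n (k + 1) with hπ
  set M := qSmall p n k hk with hM
  set G := (push F φ).map π with hG
  set fs := PowerSeries.map π f with hfs
  have hfs0 : PowerSeries.constantCoeff fs = 0 := H.1
  have hf's0 : PowerSeries.constantCoeff (PowerSeries.map π f') = 0 := H'.1
  have hz : Ord 1 (0 : MvPowerSeries (Fin 2) (LT p n ⧸ maximalIdeal (LT p n) ^ (k + 1))) :=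
    ord_one_iff.2 (by simp)
  have hE : IsDefect M (F.map π) G fs 0 := by
    refine ⟨Small.isSmall_zero, hz, H.2.trans ?_⟩
    exact (G.add_zero (hasSubst_one
      (ord_law2 G (ord_series (ord_X 0) hfs0) (ord_series (ord_X 1) hfs0)))).symm
  have hu : IsUnit (PowerSeries.subst (fs : MvPowerSeries Unit _) (Small.omega G)) := by
    rw [MvPowerSeries.isUnit_iff_constantCoeff,
      Small.constantCoeff_omega_subst G (ord_one_iff.2 hfs0)]
    exact isUnit_one
  obtain ⟨u, hu⟩ := hu
  set ε : PowerSeries (LT p n ⧸ maximalIdeal (LT p n) ^ (k + 1)) :=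
    PowerSeries.map π (f' - f) * ↑u⁻¹ with hεdef
  have hsm : M.IsSmall (ε : MvPowerSeries Unit _) :=
    (isSmall_series hk fun b => by rw [map_sub]; exact hff b).mul_right _
  have hε0 : PowerSeries.constantCoeff ε = 0 := by
    rw [hεdef, map_mul, map_sub, map_sub, hfs0, hf's0, sub_zero, zero_mul]
  have hsum : (MvPowerSeries.subst ![fs, ε] G.toPowerSeries : PowerSeries _) =
      PowerSeries.map π f' := by
    refine (Small.add_small (M := M) G (ord_one_iff.2 hfs0) hsm (ord_one_iff.2 hε0)).trans ?_
    rw [← hu, hεdef, map_sub]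
    exact (congrArg (fs + ·) (Units.inv_mul_cancel_right _ u)).trans (add_sub_cancel _ _)
  have heq := (correct_iff hk hF hφ hf hfg hE hsm hε0).1 (by rw [hsum]; exact H')
  have hind : ∀ d, (fun i => lam p n k d (φ' (X i) - φ (X i))) = 0 ∧
      (M.lamS d ε : PowerSeries (Res p n)) = 0 := by
    intro d
    refine independent (special p n F) (special_low_ord hF) (special_lead hF hn)
      (fun i => ord_pullback hg0 (ord_cls hF i)) (fun i => pullback_cls_lead hF hg0 hg.2 i) hn
      ?_ ?_
    · rw [← PowerSeries.coeff_zero_eq_constantCoeff_apply]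
      change M.lam d (PowerSeries.coeff 0 ε) = 0
      rw [PowerSeries.coeff_zero_eq_constantCoeff_apply, hε0, M.lam_zero]
    · have := heq d
      rwa [Small.lamS_zero, zero_add] at this
  refine ⟨fun i => (mem_succ_iff (hφ i)).2 fun d => congrFun (hind d).1 i, fun b => ?_⟩
  have hε : (ε : MvPowerSeries Unit _) = 0 :=
    Small.eq_of_lamS hsm Small.isSmall_zero fun d => by
      rw [Small.lamS_zero]
      exact (hind d).2
  have : PowerSeries.map π (f' - f) = 0 := by
    have h1 := congrArg (fun z : PowerSeries _ => z * (↑u : PowerSeries _)) hε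
    simpa [hεdef] using h1
  have h2 := congrArg (PowerSeries.coeff b) this
  rwa [PowerSeries.coeff_map, map_zero, map_sub, proj_eq_zero] at h2

end Vale.Agent.P217.Action
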